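import Crest.Agent.X261.Ans.Defs
import Crest.Agent.X261.Psh.Defs
import Crest.Agent.X261.Loc.Defs

/-!
# Row 261, package EQV (helper30), file `Defs`

* `AE μ A P` : `P` holds almost everywhere on the manifold (in all charts);
* `LI μ A F x` : `F : M → ℝ≥0∞` is integrable near `x`;
* `TP μ A G` : the abstract two-point system (limit objects);
* `TP.Out` : what is proved about it.
-/

set_option autoImplicit false
set_option linter.unusedSectionVars false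
set_option linter.dupNamespace false

open Set Filter Topology MeasureTheory
open scoped ENNReal

namespace Crest.Agent.X261.Eqv

open Crest.Agent.X261.Ans Crest.Agent.X261.Psh Crest.Agent.X261.Loc

noncomputable section

variable {E : Type} [NormedAddCommGroup E] [NormedSpace ℂ E] [MeasurableSpace E]
  {M : Type} [TopologicalSpace M]

/-- almost everywhere, in all charts -/
def AE (μ : Measure E) (A : HA E M) (P : M → Prop) : Prop :=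
  ∀ i, ∀ᵐ z ∂μ, z ∈ (A.e i).target → P ((A.e i).symm z)

/-- integrable near `x` -/
def LI (μ : Measure E) (A : HA E M) (F : M → ℝ≥0∞) (x : M) : Prop :=
  ∃ i, x ∈ (A.e i).source ∧ ∃ V ∈ 𝓝 (A.e i x), ∫⁻ z in V, F ((A.e i).symm z) ∂μ < ⊤

/-- `exp (-N a)` -/
def eN (N : ℝ) (a : EReal) : ℝ≥0∞ := EReal.exp (-((N : EReal) * a))

/-- `u + wt` is psh in all charts -/
def PW (A : HA E M) (wt : A.ι → E → ℝ) (u : M → EReal) : Prop :=
  ∀ i, IsPsh (A.e i).target fun z => u ((A.e i).symm z) + (wt i z : ℝ)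

/-- the two-point system -/
structure TP (μ : Measure E) (A : HA E M) (G : Type) [Group G] [MulAction G M] where
  hol : ∀ (g : G) (x : M), A.Hol A (fun y => g • y) x
  K : Set M
  K_cpt : IsCompact K
  K_cov : ∀ x : M, ∃ g : G, g • x ∈ K
  /-- local potentials -/
  wt : A.ι → E → ℝ
  wt_bdd : ∀ i, ∀ z ∈ (A.e i).target, ∃ C : ℝ, ∀ᶠ w in 𝓝 z, |wt i w| ≤ C
  φ : M → EReal
  φ_psh : PW A wt φ
  φ_inv : ∀ (g : G) x, φ (g • x) = φ x
  /-- the typical points -/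
  M0 : Set M
  M0_ae : AE μ A (· ∈ M0)
  M0_inv : ∀ g : G, ∀ x ∈ M0, g • x ∈ M0
  M0_fin : ∀ x ∈ M0, φ x ≠ ⊥
  u : ℕ → M × M → EReal
  u_psh : ∀ k, PW (A.prod A) (fun i q => wt i.1 q.1 + wt i.2 q.2) (u k)
  Xi : ℕ → M → M → EReal
  u_eq : ∀ k, AE (μ.prod μ) (A.prod A) fun q => u k q = Xi k q.1 q.2 + φ q.1 + φ q.2
  Xi_le : ∀ k, ∀ x ∈ M0, ∀ y ∈ M0, Xi k x y ≤ 0
  Xi_symm : ∀ k, ∀ x ∈ M0, ∀ y ∈ M0, Xi k x y = Xi k y x
  Xi_inv : ∀ k (g : G), ∀ x ∈ M0, ∀ y ∈ M0, Xi k (g • x) (g • y) = Xi k x y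
  /-- (U) -/
  tri : ∀ k, ∃ lam C : ℝ, 0 < lam ∧ ∀ x ∈ M0, ∀ y ∈ M0, ∀ z ∈ M0, ∀ a : ℝ, 0 ≤ a →
    Xi (k + 1) x y ≤ (-a : ℝ) → Xi (k + 1) y z ≤ (-a : ℝ) → Xi k x z ≤ (C - lam * a : ℝ)
  /-- (R) -/
  pole : ∀ k, ∃ c : ℝ, 0 < c ∧ ∀ i, ∀ z₀ ∈ (A.e i).target, ∃ C : ℝ, ∃ V ∈ 𝓝 z₀, ∀ z ∈ V, ∀ w ∈ V,
    (A.e i).symm z ∈ M0 → (A.e i).symm w ∈ M0 → ∀ r : ℝ, 0 < r → ‖z - w‖ ≤ r →
      Xi k ((A.e i).symm z) ((A.e i).symm w) + φ ((A.e i).symm w) ≤ (c * Real.log r + C : ℝ)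

namespace TP

variable {μ : Measure E} {A : HA E M} {G : Type} [Group G] [MulAction G M] (T : TP μ A G)

/-- `(k, a)`-close pairs -/
def cl (k : ℕ) (a : ℝ) : Set (M × M) :=
  closure {q | q.1 ∈ T.M0 ∧ q.2 ∈ T.M0 ∧ T.Xi k q.1 q.2 ≤ (-a : ℝ)}

/-- infinitely close pairs -/
def R0 : Set (M × M) := {q | ∀ k a, q ∈ T.cl k a}

/-- points where `φ` has zero Lelong number -/
def Good (x : M) : Prop := ∀ N : ℝ, 0 < N → LI μ A (fun y => eN N (T.φ y)) x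

/-- the slice `S_y = u_k (·, y) - φ y` -/
def sl (k : ℕ) (y : M) (x : M) : EReal := T.u k (x, y) + ((-(T.φ y).toReal : ℝ) : EReal)

/-- the points with good slices -/
structure Typ (y : M) : Prop where
  mem : y ∈ T.M0
  good : T.Good y
  psh : ∀ k, PW A T.wt (T.sl k y)
  le : ∀ k x, T.sl k y x ≤ T.φ x
  eq : ∀ k, AE μ A fun x => T.sl k y x = T.Xi k x y + T.φ x
  pole : ∀ k, ∃ c : ℝ, 0 < c ∧ ∀ i, y ∈ (A.e i).source → ∃ C : ℝ, ∀ᶠ z in 𝓝[≠] (A.e i y),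
    T.sl k y ((A.e i).symm z) ≤ (c * Real.log ‖z - A.e i y‖ + C : ℝ)

/-- the output -/
structure Out where
  p : ℕ
  L : Leaf G M (Fin p → ℂ)
  act : ∀ g x, L.act g x = g • x
  an_S : A.An univ L.Sᶜ
  /-- the charts of the leaf space are holomorphic submersions -/
  subm : ∀ x ∈ L.S, ∀ y ∈ L.U x, ∀ i, y ∈ (A.e i).source →
    AnalyticAt ℂ (fun z => L.π x ((A.e i).symm z)) (A.e i y) ∧
      Function.Surjective (fderiv ℂ (fun z => L.π x ((A.e i).symm z)) (A.e i y))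
  R_sub : ∀ x ∈ L.S, ∀ y ∈ L.S, L.R x y → (x, y) ∈ T.R0
  typ : AE μ A T.Typ
  /-- returns to a small neighbourhood of a good point are close -/
  near : ∀ x ∈ L.S, T.Good x → ∀ (k : ℕ) (a : ℝ), ∃ W ∈ 𝓝 x, ∀ g : G, ∀ y ∈ W, ∀ z ∈ W,
    L.R (g • y) z → ∀ x₁ ∈ W ∩ T.M0, ∀ x₂ ∈ W ∩ T.M0, T.Xi k (g • x₁) x₂ ≤ (-a : ℝ)
  k0 : ℕ
  /-- points of different plaques are not close -/
  far : ∀ k, k0 ≤ k → ∀ x ∈ L.S, ∀ C : Set (M × M), IsCompact C →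
    (∀ q ∈ C, q.1 ∈ L.U x ∧ q.2 ∈ L.U x ∧ L.π x q.1 ≠ L.π x q.2) →
    ∃ a : ℝ, ∀ q ∈ C, q ∉ T.cl k a
  /-- in the wandering case the classes through an open set are bounded; the plaques lie in
  compact connected analytic sets -/
  wand : L.Wand → ∃ V : Set M, IsOpen V ∧ V.Nonempty ∧ V ⊆ L.S ∧ ∃ C : Set M, IsCompact C ∧
    (∀ x ∈ V, ∀ y ∈ L.S, L.R x y → y ∈ C) ∧
    ∀ x ∈ V, ∃ Z : Set M, IsCompact Z ∧ IsPreconnected Z ∧ A.An univ Z ∧ x ∈ Z ∧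
      ∀ᶠ y in 𝓝 x, L.R x y → y ∈ Z

end TP

/-- the theorem of the package -/
def EqvStmt : Prop :=
  ∀ (E : Type) [NormedAddCommGroup E] [NormedSpace ℂ E] [FiniteDimensional ℂ E] [Nontrivial E]
    [MeasurableSpace E] [BorelSpace E] (μ : Measure E) [μ.IsAddHaarMeasure]
    (M : Type) [TopologicalSpace M] [T2Space M] [ConnectedSpace M] (A : HA E M) [Countable A.ι]
    (G : Type) [Group G] [MulAction G M] (T : TP μ A G), Nonempty T.Out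

end

end Crest.Agent.X261.Eqv
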