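import Crest.Agent.X261.Eqv.C2
import Crest.Agent.X261.EqW.Main

/-!
# Row 261, package EQV (helper30), file `D`: the output from the levels and the charts
-/

set_option autoImplicit false
set_option linter.unusedSectionVars false
set_option linter.dupNamespace false

open Set Filter Topology MeasureTheory

namespace Crest.Agent.X261.Eqv

open Crest.Agent.X261.Ans Crest.Agent.X261.Loc

noncomputable section

variable {E : Type} [NormedAddCommGroup E] [NormedSpace ℂ E] [FiniteDimensional ℂ E]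
  [MeasurableSpace E] [BorelSpace E] {μ : Measure E} [μ.IsAddHaarMeasure]
  {M : Type} [TopologicalSpace M] {A : HA E M} {G : Type} [Group G] [MulAction G M]

namespace TP

variable {T : TP μ A G}

theorem Near.cl {k : ℕ} {x : M} (h : T.Near k x) (b : ℝ) :
    ∃ V ∈ 𝓝 x, ∀ p ∈ V, ∀ q ∈ V, (p, q) ∈ T.cl k b := by
  obtain ⟨W, hW, h⟩ := h b
  refine ⟨interior W, interior_mem_nhds.2 hW, fun p hp q hq => mem_cl.2 fun O hO O' hO' => ?_⟩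
  obtain ⟨y, h1, h2⟩ := T.M0_ae.exists_mem (inter_mem hO (mem_interior_iff_mem_nhds.1 hp))
  obtain ⟨z, h3, h4⟩ := T.M0_ae.exists_mem (inter_mem hO' (mem_interior_iff_mem_nhds.1 hq))
  exact ⟨y, ⟨h1.1, h2⟩, z, ⟨h3.1, h4⟩, h y ⟨h1.2, h2⟩ z ⟨h3.2, h4⟩⟩

theorem near_of {R : M → M → Prop} {S : Set M} (hS : IsOpen S)
    (sinv : ∀ g : G, ∀ x ∈ S, g • x ∈ S) (R_sub : ∀ x ∈ S, ∀ y ∈ S, R x y → (x, y) ∈ T.R0)
    {x : M} (hx : x ∈ S) (hg : T.Good x) (k : ℕ) (a : ℝ) : ∃ W ∈ 𝓝 x, ∀ g : G, ∀ y ∈ W, ∀ z ∈ W,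
      R (g • y) z → ∀ x₁ ∈ W ∩ T.M0, ∀ x₂ ∈ W ∩ T.M0, T.Xi k (g • x₁) x₂ ≤ (-a : ℝ) := by
  obtain ⟨b, hb⟩ := T.tri3Q k a
  obtain ⟨W, hW, h⟩ := EqW.near_of_good T hg (k + 2) b
  refine ⟨interior W ∩ S, inter_mem (interior_mem_nhds.2 hW) (hS.mem_nhds hx),
    fun g y hy z hz hR x₁ h1 x₂ h2 => ?_⟩
  obtain ⟨u, hu, v, hv, huv⟩ := mem_cl.1 (R_sub _ (sinv g y hy.2) z hz.2 hR (k + 2) b)
    ((fun w => g⁻¹ • w) ⁻¹' W) ((T.smul_cont g⁻¹).continuousAt.preimage_mem_nhds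
      (by simpa using mem_interior_iff_mem_nhds.1 hy.1)) W (mem_interior_iff_mem_nhds.1 hz.1)
  refine hb _ (T.M0_inv g _ h1.2) u hu.2 v hv.2 _ h2.2 ?_ huv
    (h v hv _ ⟨interior_subset h2.1.1, h2.2⟩)
  rw [← T.Xi_inv _ g⁻¹ _ (T.M0_inv g _ h1.2) u hu.2, inv_smul_smul]
  exact h _ ⟨interior_subset h1.1.1, h1.2⟩ _ ⟨hu.1, T.M0_inv _ _ hu.2⟩

namespace Lv

variable [PreconnectedSpace M] (L : T.Lv)

theorem R_sub {x y : M} (h : L.toGS.LR x y) : (x, y) ∈ T.R0 := fun k a => by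
  obtain ⟨f, g, h1, h2⟩ := h
  refine GS.mem_of_freq isClosed_cl h1 ?_
  refine ((L.toGS.ex3 k h1 h1).and_eventually h2).mono fun u hu => ?_
  exact L.sub_R1 k _ _ hu.1.1 hu.1.2.1 (hu.2 k) a

variable {L} (C : L.toGS.Ch)

theorem far (k : ℕ) (hk : C.k0 + 2 ≤ k) (x : M) (hx : x ∈ C.S) (K : Set (M × M)) (hK : IsCompact K)
    (h : ∀ q ∈ K, q.1 ∈ C.U x ∧ q.2 ∈ C.U x ∧ C.π x q.1 ≠ C.π x q.2) :
    ∃ a : ℝ, ∀ q ∈ K, q ∉ T.cl k a :=
  hK.elim_directed_cover (fun a : ℝ => (T.cl k a)ᶜ) (fun _ => isClosed_cl.isOpen_compl)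
    (fun q hq => by
      by_contra hn
      simp only [mem_iUnion, mem_compl_iff, not_exists, not_not] at hn
      exact (h q hq).2.2 (C.eq_of x hx _ (h q hq).1 _ (h q hq).2.1 (L.R1_sub _ (R1_anti hk hn))))
    (directed_of_isDirected_le fun _ _ hab => compl_subset_compl.2 (cl_anti hab))

theorem nearS {x : M} (hx : x ∈ C.S) {k : ℕ} (hk : k ≤ C.k0 + 20) : T.Near k x :=
  (L.near _ x (C.S_B x hx)).anti hk

theorem sep (x : M) (hx : x ∈ C.S) (K : Set M) (hK : IsCompact K)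
    (h : ∀ z ∈ K, z ∈ C.U x ∧ C.π x z ≠ C.π x x) : ∃ V ∈ 𝓝 x, ∀ a : G,
      (∃ y ∈ V, ∃ z ∈ V, L.toGS.LR (a • y) z) → ∀ y ∈ V, ∀ z ∈ K, ¬ L.toGS.LR (a • y) z := by
  obtain ⟨a, ha⟩ := far C (C.k0 + 2) le_rfl x hx (K ×ˢ {x}) (hK.prod isCompact_singleton)
    (by rintro ⟨z, _⟩ ⟨hz, rfl⟩; exact ⟨(h z hz).1, C.U_mem _ hx, (h z hz).2⟩)
  obtain ⟨b₃, h3⟩ := T.cl_comp (C.k0 + 2) a
  obtain ⟨b₂, h2⟩ := T.cl_comp (C.k0 + 2 + 2) b₃
  obtain ⟨b₁, h1⟩ := T.cl_comp (C.k0 + 2 + 2 + 2) b₂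
  obtain ⟨V₁, hV₁, e1⟩ := (nearS C hx (k := C.k0 + 2 + 2 + 2 + 2) (by omega)).cl b₁
  obtain ⟨V₃, hV₃, e3⟩ := (nearS C hx (k := C.k0 + 2 + 2) (by omega)).cl b₃
  refine ⟨V₁ ∩ V₃ ∩ C.S, inter_mem (inter_mem hV₁ hV₃) (C.isOpen_S.mem_nhds hx),
    fun g ⟨y₀, hy₀, z₀, hz₀, h₀⟩ y hy z hz hR => ha (z, x) ⟨hz, rfl⟩ ?_⟩
  exact h3 _ z₀ _ (nearS C hz₀.2 (by omega)) (h2 _ (g • y₀) _
    (nearS C (C.sinv g _ hy₀.2) (by omega)) (h1 _ (g • y) _ (nearS C (C.sinv g _ hy.2) (by omega))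
      (L.R_sub hR.symm _ _) (cl_inv g (e1 y hy.1.1 y₀ hy₀.1.1))) (L.R_sub h₀ _ _))
    (e3 z₀ hz₀.1.2 x (mem_of_mem_nhds hV₃))

/-- the output -/
def out [Nontrivial E] [T2Space M] [Countable A.ι] (typ : AE μ A T.Typ) : T.Out where
  p := C.p
  L := C.leaf (sep C)
  act := fun _ _ => rfl
  an_S := C.an_S
  subm := fun x hx y hy _ hi => ⟨(HA.hol_self_iff hi).1 (C.subm x hx y hy).1,
    (HA.subm_self_iff (C.subm x hx y hy).1 hi).1 (C.subm x hx y hy)⟩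
  R_sub := fun _ _ _ _ h => L.R_sub h
  typ := typ
  near := fun _ hx hg k a => near_of C.isOpen_S C.sinv (fun _ _ _ _ h => L.R_sub h) hx hg k a
  k0 := C.k0 + 2
  far := far C
  wand := EqW.wand T (C.leaf (sep C)) (fun _ _ => rfl) C.an_S (fun _ _ _ _ h => L.R_sub h) typ
    (far C) (fun x _ y hy h W hW => by
      obtain ⟨f, g, h1, h2⟩ := GS.LR.ev h
      filter_upwards [h2, h1.tendsto.eventually (inter_mem hW (C.isOpen_S.mem_nhds hy))]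
        with u a1 a2 using ⟨f u, a2.1, a2.2, a1⟩)
    fun _ hx _ hy h => C.cls hx hy (h.mono fun _ hq => hq.2.2)

end Lv

end TP

/-- existence of the levels -/
def LvStmt : Prop :=
  ∀ (E : Type) [NormedAddCommGroup E] [NormedSpace ℂ E] [FiniteDimensional ℂ E] [Nontrivial E]
    [MeasurableSpace E] [BorelSpace E] (μ : Measure E) [μ.IsAddHaarMeasure]
    (M : Type) [TopologicalSpace M] [T2Space M] [ConnectedSpace M] (A : HA E M) [Countable A.ι]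
    (G : Type) [Group G] [MulAction G M] (T : TP μ A G), Nonempty T.Lv

/-- almost every point is typical -/
def TypStmt : Prop :=
  ∀ (E : Type) [NormedAddCommGroup E] [NormedSpace ℂ E] [FiniteDimensional ℂ E] [Nontrivial E]
    [MeasurableSpace E] [BorelSpace E] (μ : Measure E) [μ.IsAddHaarMeasure]
    (M : Type) [TopologicalSpace M] [T2Space M] [ConnectedSpace M] (A : HA E M) [Countable A.ι]
    (G : Type) [Group G] [MulAction G M] (T : TP μ A G), AE μ A T.Typ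

theorem eqv_of (h1 : LvStmt) (h2 : ChStmt) (h3 : TypStmt) : EqvStmt := by
  intro E _ _ _ _ _ _ μ _ M _ _ _ A _ G _ _ T
  obtain ⟨L⟩ := h1 E μ M A G T
  obtain ⟨C⟩ := h2 E M A G L.toGS
  exact ⟨TP.Lv.out C (h3 E μ M A G T)⟩

end

end Crest.Agent.X261.Eqv
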