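import Crest.Agent.X261.Eqv.Defs
import Crest.Agent.X261.Ans.Man1

/-!
# Row 261, package EQV (helper30), file `A`: `AE` and `LI`
-/

set_option autoImplicit false
set_option linter.unusedSectionVars false
set_option linter.dupNamespace false

open Set Filter Topology MeasureTheory Metric
open scoped ENNReal

namespace Crest.Agent.X261.Eqv

open Crest.Agent.X261.Ans

noncomputable section

section Flat

variable {E : Type} [NormedAddCommGroup E] [NormedSpace ℂ E] [FiniteDimensional ℂ E]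
  [MeasurableSpace E] [BorelSpace E] {μ : Measure E} [μ.IsAddHaarMeasure]

theorem null_img {f : E → E} {s : Set E} (hf : ∀ z ∈ s, AnalyticAt ℂ f z) (hs : μ s = 0) :
    μ (f '' s) = 0 :=
  addHaar_image_eq_zero_of_differentiableOn_of_addHaar_eq_zero μ
    (fun z hz => ((hf z hz).differentiableAt.restrictScalars ℝ).differentiableWithinAt) hs

/-- local integrability is invariant under local biholomorphisms -/
theorem li_comp {h k : E → E} {z : E} (hh : ContinuousAt h z) (hk : AnalyticAt ℂ k (h z))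
    (h1 : ∀ᶠ w in 𝓝 z, k (h w) = w) (h2 : ∀ᶠ w in 𝓝 (h z), h (k w) = w) {F : E → ℝ≥0∞}
    {V : Set E} (hV : V ∈ 𝓝 (h z)) (hF : ∫⁻ w in V, F w ∂μ < ⊤) :
    ∃ V' ∈ 𝓝 z, ∫⁻ w in V', F (h w) ∂μ < ⊤ := by
  have hd : ContinuousAt (fun w => |((fderiv ℂ k w).restrictScalars ℝ).det|) (h z) := by
    refine ContinuousAt.abs ?_
    refine ContinuousLinearMap.continuous_det.continuousAt.comp ?_
    exact (ContinuousLinearMap.restrictScalarsL ℂ E E ℝ ℝ).continuous.continuousAt.comp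
      hk.fderiv.continuousAt
  set C := |((fderiv ℂ k (h z)).restrictScalars ℝ).det| + 1
  have h3 : ∀ᶠ w in 𝓝 (h z), |((fderiv ℂ k w).restrictScalars ℝ).det| ≤ C :=
    (hd.eventually (gt_mem_nhds (lt_add_one _))).mono fun _ hw => hw.le
  obtain ⟨s, hs, hso, hsz⟩ := _root_.mem_nhds_iff.1
    (inter_mem hV (h2.and (h3.and hk.eventually_analyticAt)))
  have hinj : InjOn k s := fun a ha b hb hab => by
    rw [← (hs ha).2.1, ← (hs hb).2.1, hab]
  refine ⟨k '' s, ?_, ?_⟩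
  · filter_upwards [h1, hh.preimage_mem_nhds (hso.mem_nhds hsz)] with w hw1 hw2
    exact ⟨h w, hw2, hw1⟩
  · rw [lintegral_image_eq_lintegral_abs_det_fderiv_mul μ hso.measurableSet
      (f' := fun w => (fderiv ℂ k w).restrictScalars ℝ)
      (fun w hw => ((hs hw).2.2.2.differentiableAt.hasFDerivAt.restrictScalars
        ℝ).hasFDerivWithinAt) hinj]
    calc _ ≤ ∫⁻ w in s, ENNReal.ofReal C * F w ∂μ := by
          refine setLIntegral_mono' hso.measurableSet fun w hw => ?_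
          rw [(hs hw).2.1]
          exact mul_le_mul_left (ENNReal.ofReal_le_ofReal (hs hw).2.2.1) _
      _ = ENNReal.ofReal C * ∫⁻ w in s, F w ∂μ := lintegral_const_mul' _ _ ENNReal.ofReal_ne_top
      _ < ⊤ := ENNReal.mul_lt_top ENNReal.ofReal_lt_top
          ((lintegral_mono_set fun w hw => (hs hw).1).trans_lt hF)

/-- typical points: an integrable function is not large on a whole small ball -/
theorem exists_typ {F : E → ℝ≥0∞} {z : E} {V : Set E} (hV : V ∈ 𝓝 z)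
    (hF : ∫⁻ w in V, F w ∂μ < ⊤) {P : E → Prop} (hP : ∀ᵐ w ∂μ, w ∈ V → P w) :
    ∀ᶠ r in 𝓝[>] (0 : ℝ), ∃ w ∈ ball z r, P w ∧
      F w < ENNReal.ofReal ((r ^ (Module.finrank ℝ E + 1))⁻¹) := by
  obtain ⟨r₀, hr₀, hb⟩ := Metric.mem_nhds_iff.1 hV
  set I := ∫⁻ w in V, F w ∂μ
  set m := μ (ball (0 : E) 1)
  have hm0 : m ≠ 0 := (measure_ball_pos μ _ one_pos).ne'
  have hm1 : m ≠ ⊤ := measure_ball_lt_top.ne
  have hmr : 0 < m.toReal := ENNReal.toReal_pos hm0 hm1
  have hev : ∀ᶠ r in 𝓝[>] (0 : ℝ), r * (I.toReal + 1) < m.toReal := by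
    have : Tendsto (fun r : ℝ => r * (I.toReal + 1)) (𝓝 0) (𝓝 (0 * (I.toReal + 1))) :=
      tendsto_id.mul_const _
    rw [zero_mul] at this
    exact (this.eventually (gt_mem_nhds hmr)).filter_mono nhdsWithin_le_nhds
  filter_upwards [hev, self_mem_nhdsWithin, mem_nhdsWithin_of_mem_nhds (gt_mem_nhds hr₀)]
    with r h1 h2 h3
  have h2 : 0 < r := h2
  by_contra hcon
  push Not at hcon
  have hsub : ball z r ⊆ V := (ball_subset_ball h3.le).trans hb
  have hle : ENNReal.ofReal ((r ^ (Module.finrank ℝ E + 1))⁻¹) * μ (ball z r) ≤ I := by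
    rw [← setLIntegral_const]
    refine le_trans (lintegral_mono_ae ?_) (lintegral_mono_set hsub)
    rw [ae_restrict_iff' measurableSet_ball]
    filter_upwards [hP] with w hw hwb
    exact hcon w hwb (hw (hsub hwb))
  rw [Measure.addHaar_ball_of_pos μ z h2, ← mul_assoc, ← ENNReal.ofReal_mul (by positivity)] at hle
  have he : (r ^ (Module.finrank ℝ E + 1))⁻¹ * r ^ Module.finrank ℝ E = r⁻¹ := by
    rw [pow_succ]; field_simp
  rw [he] at hle
  have := ENNReal.toReal_mono hF.ne hle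
  rw [ENNReal.toReal_mul, ENNReal.toReal_ofReal (by positivity)] at this
  have h4 : m.toReal ≤ r * I.toReal := by
    have := mul_le_mul_of_nonneg_left this h2.le
    rwa [← mul_assoc, mul_inv_cancel₀ h2.ne', one_mul] at this
  nlinarith

end Flat

variable {E : Type} [NormedAddCommGroup E] [NormedSpace ℂ E] [FiniteDimensional ℂ E]
  [MeasurableSpace E] [BorelSpace E] {μ : Measure E} [μ.IsAddHaarMeasure]
  {M N : Type} [TopologicalSpace M] [TopologicalSpace N] {A : HA E M} {B : HA E N}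

/-! ### almost everywhere -/

theorem AE.mono {P Q : M → Prop} (h : AE μ A P) (hPQ : ∀ x, P x → Q x) : AE μ A Q :=
  fun i => (h i).mono fun _ hz ht => hPQ _ (hz ht)

theorem AE.and {P Q : M → Prop} (h : AE μ A P) (h' : AE μ A Q) : AE μ A fun x => P x ∧ Q x :=
  fun i => ((h i).and (h' i)).mono fun _ hz ht => ⟨hz.1 ht, hz.2 ht⟩

theorem ae_of_forall {P : M → Prop} (h : ∀ x, P x) : AE μ A P :=
  fun _ => Eventually.of_forall fun _ _ => h _

theorem ae_all {ι : Sort*} [Countable ι] {P : ι → M → Prop} (h : ∀ j, AE μ A (P j)) :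
    AE μ A fun x => ∀ j, P j x := fun i => by
  have := ae_all_iff.2 fun j => h j i
  exact this.mono fun _ hz ht j => hz j ht

theorem AE.freq {P : M → Prop} (h : AE μ A P) (x : M) : ∃ᶠ y in 𝓝 x, P y := by
  obtain ⟨i, hi⟩ := A.cover x
  rw [HA.fr_chart hi]
  have hd : Dense {z | z ∈ (A.e i).target → P ((A.e i).symm z)} := Measure.dense_of_ae (h i)
  have := (mem_closure_iff_frequently.1 (hd (A.e i x))).and_eventually (HA.ev_target hi)
  exact this.mono fun _ hz => hz.1 hz.2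

theorem AE.dense {P : M → Prop} (h : AE μ A P) : Dense {x | P x} :=
  fun x => mem_closure_iff_frequently.2 (h.freq x)

theorem AE.exists_mem {P : M → Prop} (h : AE μ A P) {x : M} {W : Set M} (hW : W ∈ 𝓝 x) :
    ∃ y ∈ W, P y := by
  obtain ⟨y, h1, h2⟩ := ((h.freq x).and_eventually hW).exists
  exact ⟨y, h2, h1⟩

/-- the holomorphic image of a null set is null -/
theorem null_chart {Z : Set E} (hZ : μ Z = 0) {f : E → N}
    (hf : ∀ z ∈ Z, (HA.self E).Hol B f z) (j : B.ι) :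
    μ ((B.e j).target ∩ (B.e j).symm ⁻¹' (f '' Z)) = 0 := by
  have h1 : μ ((fun z => B.e j (f z)) '' (Z ∩ f ⁻¹' (B.e j).source)) = 0 :=
    null_img (fun z hz => (HA.self_hol_iff' hz.2).1 (hf z hz.1) |>.2)
      (measure_mono_null inter_subset_left hZ)
  refine measure_mono_null ?_ h1
  rintro w ⟨hw, z, hz, he⟩
  refine ⟨z, ⟨hz, ?_⟩, ?_⟩
  · show f z ∈ (B.e j).source
    rw [he]; exact (B.e j).map_target hw
  · show B.e j (f z) = w
    rw [he]; exact (B.e j).right_inv hw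

theorem ae_iff_null {P : M → Prop} :
    AE μ A P ↔ ∀ i, μ ((A.e i).target ∩ (A.e i).symm ⁻¹' {x | ¬ P x}) = 0 := by
  refine forall_congr' fun i => ?_
  rw [ae_iff]
  congr! 2
  ext z
  simp

/-- pull-back of an almost everywhere statement by a map with a holomorphic left inverse -/
theorem AE.comp [Countable A.ι] {P : M → Prop} (h : AE μ A P) {f : M → N} {g : N → M}
    {O : Set N} (hf : ∀ y ∈ O, A.Hol B f (g y)) (hfg : ∀ y ∈ O, f (g y) = y) :
    AE μ B fun y => y ∈ O → P (g y) := by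
  rw [ae_iff_null] at h ⊢
  intro j
  have h1 : ∀ i, μ ((B.e j).target ∩ (B.e j).symm ⁻¹' ((fun z => f ((A.e i).symm z)) ''
      (((A.e i).target ∩ (A.e i).symm ⁻¹' {x | ¬ P x}) ∩ (A.e i).symm ⁻¹' (g '' O)))) = 0 := by
    intro i
    refine null_chart (measure_mono_null inter_subset_left (h i)) (fun z hz => ?_) j
    obtain ⟨y, hy, he⟩ := hz.2
    exact HA.Hol.comp (he ▸ hf y hy) (HA.hol_symm hz.1.1)
  refine measure_mono_null ?_ (measure_iUnion_null h1)
  rintro w ⟨hw, hw'⟩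
  simp only [mem_preimage, mem_ofPred_eq, not_forall] at hw'
  obtain ⟨hO, hP⟩ := hw'
  obtain ⟨i, hi⟩ := A.cover (g ((B.e j).symm w))
  refine mem_iUnion.2 ⟨i, hw, A.e i (g ((B.e j).symm w)), ⟨⟨(A.e i).map_source hi, ?_⟩, ?_⟩, ?_⟩
  · show ¬ P _
    rwa [(A.e i).left_inv hi]
  · show _ ∈ g '' O
    rw [(A.e i).left_inv hi]; exact mem_image_of_mem g hO
  · show f _ = _
    rw [(A.e i).left_inv hi, hfg _ hO]

/-- one chart suffices -/
theorem ae_of_chart {P : M → Prop} {i : A.ι} {V : Set E}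
    (h : ∀ᵐ z ∂μ, z ∈ V → z ∈ (A.e i).target → P ((A.e i).symm z)) :
    AE μ A fun x => x ∈ (A.e i).source → A.e i x ∈ V → P x := by
  rw [ae_iff_null]
  intro j
  rw [ae_iff] at h
  have h1 := null_chart (B := A) h (f := (A.e i).symm) (fun z hz => by
    simp only [mem_ofPred_eq, not_forall] at hz
    obtain ⟨_, ht, _⟩ := hz
    exact HA.hol_symm ht) j
  refine measure_mono_null ?_ h1
  rintro w ⟨hw, hw'⟩
  simp only [mem_preimage, mem_ofPred_eq, not_forall] at hw'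
  obtain ⟨h2, h3, h4⟩ := hw'
  refine ⟨hw, A.e i ((A.e j).symm w), ?_, (A.e i).left_inv h2⟩
  simp only [mem_ofPred_eq, not_forall]
  exact ⟨h3, (A.e i).map_source h2, by rwa [(A.e i).left_inv h2]⟩

theorem ae_of_local {P : M → Prop}
    (h : ∀ x, ∃ W ∈ 𝓝 x, AE μ A fun y => y ∈ W → P y) : AE μ A P := by
  intro i
  have h1 : ∀ z ∈ (A.e i).target, ∃ V ∈ 𝓝[(A.e i).target] z,
      ∀ᵐ w ∂μ, w ∈ V → w ∈ (A.e i).target → P ((A.e i).symm w) := by
    intro z hz
    obtain ⟨W, hW, hP⟩ := h ((A.e i).symm z)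
    refine ⟨(A.e i).symm ⁻¹' W, mem_nhdsWithin_of_mem_nhds
      (((A.e i).continuousAt_symm hz).preimage_mem_nhds hW), (hP i).mono fun w hw h1 h2 => hw h2 h1⟩
  choose! V hV hP using h1
  obtain ⟨s, hs, hc, hcov⟩ := TopologicalSpace.countable_cover_nhdsWithin hV
  have := (ae_ball_iff hc).2 fun z hz => hP z (hs hz)
  filter_upwards [this] with w hw ht
  obtain ⟨z, hz, hwz⟩ := mem_iUnion₂.1 (hcov ht)
  exact hw z hz hwz ht

theorem ae_of_cov {S : Set M} (h : A.Cov (Module.finrank ℂ E) S) : AE μ A fun x => x ∉ S := by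
  rw [ae_iff_null]
  intro i
  simpa using (h i).null μ

/-! ### products -/

theorem AE.fst {P : M → Prop} (h : AE μ A P) (B : HA E N) :
    AE (μ.prod μ) (A.prod B) fun q => P q.1 := fun i =>
  (Measure.quasiMeasurePreserving_fst.tendsto_ae.eventually (h i.1)).mono fun _ hz ht => hz ht.1

theorem AE.snd {P : N → Prop} (h : AE μ B P) (A : HA E M) :
    AE (μ.prod μ) (A.prod B) fun q => P q.2 := fun i =>
  (Measure.quasiMeasurePreserving_snd.tendsto_ae.eventually (h i.2)).mono fun _ hz ht => hz ht.2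

/-- Fubini -/
theorem AE.fub [Countable A.ι] {P : M × N → Prop} (h : AE (μ.prod μ) (A.prod B) P) :
    AE μ B fun y => AE μ A fun x => P (x, y) := by
  intro j
  have h1 : ∀ i, ∀ᵐ w ∂μ, ∀ᵐ z ∂μ, (z, w) ∈ ((A.prod B).e (i, j)).target →
      P (((A.prod B).e (i, j)).symm (z, w)) := fun i =>
    Measure.ae_ae_of_ae_prod
      ((Measure.measurePreserving_swap (μ := μ) (ν := μ)).quasiMeasurePreserving.tendsto_ae.eventually
        (h (i, j)))
  filter_upwards [ae_all_iff.2 h1] with w hw ht i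
  exact (hw i).mono fun z hz hz' => hz ⟨hz', ht⟩

/-! ### local integrability -/

theorem LI.comp {F : N → ℝ≥0∞} {f : M → N} {g : N → M} {x : M} (h : LI μ B F (f x))
    (hf : ContinuousAt f x) (hg : B.Hol A g (f x)) (h1 : ∀ᶠ y in 𝓝 x, g (f y) = y)
    (h2 : ∀ᶠ y in 𝓝 (f x), f (g y) = y) {i : A.ι} (hi : x ∈ (A.e i).source) :
    ∃ V ∈ 𝓝 (A.e i x), ∫⁻ z in V, F (f ((A.e i).symm z)) ∂μ < ⊤ := by
  obtain ⟨j, hj, V, hV, hF⟩ := h
  have hx : g (f x) = x := h1.self_of_nhds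
  have he : B.e j (f ((A.e i).symm (A.e i x))) = B.e j (f x) := by rw [(A.e i).left_inv hi]
  have hc0 : ContinuousAt (fun z => f ((A.e i).symm z)) (A.e i x) :=
    ContinuousAt.comp_of_eq hf (HA.cont_symm hi) ((A.e i).left_inv hi)
  have hsrc : ∀ᶠ z in 𝓝 (A.e i x), f ((A.e i).symm z) ∈ (B.e j).source :=
    (HA.ev_chart hi).1 (hf.preimage_mem_nhds ((B.e j).open_source.mem_nhds hj))
  obtain ⟨V', hV', hF'⟩ := li_comp (μ := μ) (h := fun z => B.e j (f ((A.e i).symm z)))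
    (k := fun w => A.e i (g ((B.e j).symm w))) (z := A.e i x) (V := V)
    (F := fun w => F ((B.e j).symm w))
    (ContinuousAt.comp_of_eq ((B.e j).continuousAt hj) hc0 (by rw [(A.e i).left_inv hi]))
    (by rw [he]; exact hg.2 j i hj (hx.symm ▸ hi))
    (by
      filter_upwards [hsrc, (HA.ev_chart hi).1 h1, HA.ev_target hi] with z hz1 hz2 hz3
      rw [(B.e j).left_inv hz1, hz2, (A.e i).right_inv hz3])
    (by
      rw [he]
      have : ∀ᶠ y in 𝓝 (f x), g y ∈ (A.e i).source :=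
        hg.1.preimage_mem_nhds ((A.e i).open_source.mem_nhds (hx.symm ▸ hi))
      filter_upwards [(HA.ev_chart hj).1 this, (HA.ev_chart hj).1 h2, HA.ev_target hj]
        with w hw1 hw2 hw3
      rw [(A.e i).left_inv hw1, hw2, (B.e j).right_inv hw3])
    (by rwa [he]) hF
  obtain ⟨s, hs, hso, hsz⟩ := _root_.mem_nhds_iff.1 (inter_mem hV' hsrc)
  refine ⟨s, hso.mem_nhds hsz, lt_of_le_of_lt ?_ ((lintegral_mono_set fun z hz =>
    (hs hz).1).trans_lt hF')⟩
  refine setLIntegral_mono' hso.measurableSet fun z hz => ?_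
  rw [(B.e j).left_inv (hs hz).2]

theorem LI.comp' {F : N → ℝ≥0∞} {f : M → N} {g : N → M} {x : M} (h : LI μ B F (f x))
    (hf : ContinuousAt f x) (hg : B.Hol A g (f x)) (h1 : ∀ᶠ y in 𝓝 x, g (f y) = y)
    (h2 : ∀ᶠ y in 𝓝 (f x), f (g y) = y) : LI μ A (fun y => F (f y)) x := by
  obtain ⟨i, hi⟩ := A.cover x
  exact ⟨i, hi, h.comp hf hg h1 h2 hi⟩

theorem LI.chart {F : M → ℝ≥0∞} {x : M} (h : LI μ A F x) {i : A.ι} (hi : x ∈ (A.e i).source) :
    ∃ V ∈ 𝓝 (A.e i x), ∫⁻ z in V, F ((A.e i).symm z) ∂μ < ⊤ :=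
  LI.comp (f := fun y => y) (g := fun y => y) h continuousAt_id (A.hol_id x)
    (Eventually.of_forall fun _ => rfl) (Eventually.of_forall fun _ => rfl) hi

theorem LI.mono {F F' : M → ℝ≥0∞} {x : M} (h : LI μ A F x) {W : Set M} (hW : W ∈ 𝓝 x)
    {c : ℝ≥0∞} (hc : c ≠ ⊤) (hle : AE μ A fun y => y ∈ W → F' y ≤ c * F y) : LI μ A F' x := by
  obtain ⟨i, hi, V, hV, hF⟩ := h
  obtain ⟨s, hs, hso, hsz⟩ := _root_.mem_nhds_iff.1
    (inter_mem hV (((HA.ev_chart hi).1 hW).and (HA.ev_target hi)))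
  refine ⟨i, hi, s, hso.mem_nhds hsz, ?_⟩
  calc _ ≤ ∫⁻ z in s, c * F ((A.e i).symm z) ∂μ := by
        refine lintegral_mono_ae ?_
        rw [ae_restrict_iff' hso.measurableSet]
        filter_upwards [hle i] with z hz hzs
        exact hz (hs hzs).2.2 (hs hzs).2.1
    _ = c * ∫⁻ z in s, F ((A.e i).symm z) ∂μ := lintegral_const_mul' _ _ hc
    _ < ⊤ := ENNReal.mul_lt_top hc.lt_top
        ((lintegral_mono_set fun w hw => (hs hw).1).trans_lt hF)

theorem LI.eventually {F : M → ℝ≥0∞} {x : M} (h : LI μ A F x) : ∀ᶠ y in 𝓝 x, LI μ A F y := by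
  obtain ⟨i, hi, V, hV, hF⟩ := h
  filter_upwards [HA.ev_source hi, (HA.ev_chart' hi).1 (eventually_mem_nhds_iff.2 hV)]
    with y h1 h2
  exact ⟨i, h1, V, h2, hF⟩

theorem LI.prod {F : M → ℝ≥0∞} {F' : N → ℝ≥0∞} {x : M} {y : N} (h : LI μ A F x)
    (h' : LI μ B F' y) (hfin : AE μ A fun x => F x ≠ ⊤) :
    LI (μ.prod μ) (A.prod B) (fun q => F q.1 * F' q.2) (x, y) := by
  obtain ⟨i, hi, V, hV, hF⟩ := h
  obtain ⟨j, hj, V', hV', hF'⟩ := h'
  obtain ⟨s, hs, hso, hsz⟩ := _root_.mem_nhds_iff.1 (inter_mem hV (HA.ev_target hi))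
  refine ⟨(i, j), ⟨hi, hj⟩, s ×ˢ V', prod_mem_nhds (hso.mem_nhds hsz) hV', ?_⟩
  rw [← Measure.prod_restrict]
  refine (lintegral_prod_le _).trans_lt ?_
  calc _ = ∫⁻ z in s, F ((A.e i).symm z) * ∫⁻ w in V', F' ((B.e j).symm w) ∂μ ∂μ := by
        refine lintegral_congr_ae ?_
        rw [EventuallyEq, ae_restrict_iff' hso.measurableSet]
        filter_upwards [hfin i] with z hz hzs
        exact lintegral_const_mul' _ _ (hz (hs hzs).2)
    _ = (∫⁻ z in s, F ((A.e i).symm z) ∂μ) * ∫⁻ w in V', F' ((B.e j).symm w) ∂μ :=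
        lintegral_mul_const' _ _ hF'.ne
    _ < ⊤ := ENNReal.mul_lt_top ((lintegral_mono_set fun w hw => (hs hw).1).trans_lt hF) hF'

/-- typical points near a point of local integrability -/
theorem LI.typ {F : M → ℝ≥0∞} {x : M} (h : LI μ A F x) {i : A.ι} (hi : x ∈ (A.e i).source)
    {P : M → Prop} {W : Set M} (hW : W ∈ 𝓝 x) (hP : AE μ A fun y => y ∈ W → P y) :
    ∀ᶠ r in 𝓝[>] (0 : ℝ), ∃ w ∈ ball (A.e i x) r, w ∈ (A.e i).target ∧ P ((A.e i).symm w) ∧
      F ((A.e i).symm w) < ENNReal.ofReal ((r ^ (Module.finrank ℝ E + 1))⁻¹) := by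
  obtain ⟨V, hV, hF⟩ := h.chart hi
  have := exists_typ (μ := μ) (inter_mem hV (((HA.ev_chart hi).1 hW).and (HA.ev_target hi)))
    ((lintegral_mono_set inter_subset_left).trans_lt hF)
    (P := fun w => w ∈ (A.e i).target ∧ P ((A.e i).symm w))
    ((hP i).mono fun w hw h => ⟨h.2.2, hw h.2.2 h.2.1⟩)
  exact this.mono fun r ⟨w, h1, h2, h3⟩ => ⟨w, h1, h2.1, h2.2, h3⟩

end

end Crest.Agent.X261.Eqv
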