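import Crest.Agent.X261.Eqv.A
import Crest.Agent.X261.Ans.Man
import Crest.Agent.X261.Wand.Main

/-!
# Row 261, package EQV (helper30), file `B1`: the non-integrability locus is analytic
-/

set_option autoImplicit false
set_option linter.unusedSectionVars false
set_option linter.dupNamespace false

open Set Filter Topology MeasureTheory Metric
open scoped ENNReal

namespace Crest.Agent.X261.Eqv

open Crest.Agent.X261.Ans Crest.Agent.X261.Psh

noncomputable section

variable {E : Type} [NormedAddCommGroup E] [NormedSpace ℂ E] [FiniteDimensional ℂ E]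
  [MeasurableSpace E] [BorelSpace E] {μ : Measure E} [μ.IsAddHaarMeasure]

/-- Bombieri: the non-integrability locus of `exp (-u)` is analytic -/
theorem anAt_ni [Nontrivial E] {U : Set E} (hU : IsOpen U) {u : E → EReal} (hu : IsPsh U u)
    {z : E} (hz : z ∈ U) :
    AnAt {x | ¬ ∃ V ∈ 𝓝 x, ∫⁻ y in V, EReal.exp (-u y) ∂μ < ⊤} z := by
  set n := Module.finrank ℂ E with hn
  have hn0 : 0 < n := Module.finrank_pos
  set L : (Fin n → ℂ) ≃L[ℂ] E := ContinuousLinearEquiv.ofFinrankEq (by simp [hn]) with hL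
  set A : (Fin n → ℂ) ≃ₜ E := L.toHomeomorph.trans (Homeomorph.addLeft z) with hA
  have hAa : ∀ y, A y = z + L y := fun _ => rfl
  have : ProperSpace E := FiniteDimensional.proper ℂ E
  have hm : Measure.map A volume = Measure.map L volume := by
    have e : (A : (Fin n → ℂ) → E) = (fun y => z + y) ∘ L := rfl
    rw [e, ← Measure.map_map (measurable_const_add z) L.continuous.measurable,
      map_add_left_eq_self]
  obtain ⟨s, hs⟩ : ∃ s : NNReal, Measure.map A volume = s • μ :=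
    ⟨_, hm.trans (Measure.isAddLeftInvariant_eq_smul _ μ)⟩
  obtain ⟨s', hs'⟩ : ∃ s : NNReal, μ = s • Measure.map A volume := by
    rw [hm]; exact ⟨_, Measure.isAddLeftInvariant_eq_smul μ _⟩
  have key : ∀ (F : E → ℝ≥0∞) (V : Set E),
      ∫⁻ y in A ⁻¹' V, F (A y) = ∫⁻ y in V, F y ∂(Measure.map A volume) := fun F V => by
    rw [A.measurableEmbedding.restrict_map, A.measurableEmbedding.lintegral_map]
  have hpsh : IsPsh (A ⁻¹' U) fun y => u (A y) := hu.comp_affine (L : (Fin n → ℂ) →L[ℂ] E) z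
  obtain ⟨r, hr, hsub⟩ := nhds_basis_closedBall.mem_iff.1
    ((hU.preimage A.continuous).mem_nhds (show A 0 ∈ U by simpa [hAa] using hz))
  have hWo : IsOpen (A.symm ⁻¹' ball 0 r) := isOpen_ball.preimage A.symm.continuous
  refine ⟨A.symm ⁻¹' ball 0 r, hWo, ?_, fun y hy hy' => ?_⟩
  · show A.symm z ∈ ball 0 r
    rw [show A.symm z = 0 from A.symm_apply_eq.2 (by simp [hAa])]
    exact mem_ball_self hr
  obtain ⟨V, hV, hfin⟩ := not_not.1 hy'
  obtain ⟨h, hh, hint, h1⟩ := Wand.exists_hol_eq_one hn0 (hU.preimage A.continuous) hpsh hsub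
    (x := A.symm y) hy (V := A ⁻¹' V)
    (A.continuous.continuousAt.preimage_mem_nhds (by simpa using hV))
    (by
      rw [key (fun y => EReal.exp (-u y)), hs, Measure.restrict_smul, lintegral_smul_measure]
      exact ENNReal.mul_lt_top ENNReal.coe_lt_top hfin)
  have hAs : Differentiable ℂ (A.symm : E → Fin n → ℂ) := by
    have e : (A.symm : E → Fin n → ℂ) = fun x => L.symm (x - z) := by
      funext x
      rw [A.symm_apply_eq, hAa]; simp
    rw [e]; fun_prop
  have hd : DifferentiableOn ℂ (fun x => h (A.symm x)) (A.symm ⁻¹' ball 0 r) :=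
    hh.comp hAs.differentiableOn fun _ hx => hx
  have := FiniteDimensional.complete ℂ E
  refine ⟨fun x => h (A.symm x), ⟨R266.SCV.analyticOnNhd_of_differentiableOn hWo hd,
    fun x hx hxZ => ?_⟩, by simp [h1]⟩
  by_contra hne
  refine hxZ ?_
  have hc : ContinuousAt h (A.symm x) :=
    (hh.continuousOn.continuousAt (isOpen_ball.mem_nhds hx))
  have hδ : 0 < ‖h (A.symm x)‖ / 2 := by positivity
  have hev : ∀ᶠ w in 𝓝 (A.symm x), ‖h (A.symm x)‖ / 2 < ‖h w‖ :=
    hc.norm.eventually (lt_mem_nhds (by linarith))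
  obtain ⟨t, ht, hto, htx⟩ := _root_.mem_nhds_iff.1 (inter_mem hev (isOpen_ball.mem_nhds hx))
  refine ⟨A.symm ⁻¹' t, (hto.preimage A.symm.continuous).mem_nhds htx, ?_⟩
  rw [hs', Measure.restrict_smul, lintegral_smul_measure,
    ← key (fun y => EReal.exp (-u y))]
  refine ENNReal.mul_lt_top ENNReal.coe_lt_top ?_
  have e : A ⁻¹' (A.symm ⁻¹' t) = t := by ext w; simp
  rw [e]
  set δ : ℝ≥0∞ := ENNReal.ofReal (‖h (A.symm x)‖ / 2) ^ 2
  have hδ0 : δ ≠ 0 := pow_ne_zero _ (ENNReal.ofReal_pos.2 hδ).ne'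
  have hδ1 : δ ≠ ⊤ := ENNReal.pow_ne_top ENNReal.ofReal_ne_top
  calc _ ≤ ∫⁻ w in t, δ⁻¹ * (‖h w‖ₑ ^ 2 * EReal.exp (-u (A w))) := by
        refine setLIntegral_mono' hto.measurableSet fun w hw => ?_
        have h2 : δ ≤ ‖h w‖ₑ ^ 2 := by
          refine pow_le_pow_left' ?_ 2
          rw [← ofReal_norm]
          exact ENNReal.ofReal_le_ofReal (le_of_lt (ht hw).1)
        calc _ = δ⁻¹ * (δ * EReal.exp (-u (A w))) := by
              rw [← mul_assoc, ENNReal.inv_mul_cancel hδ0 hδ1, one_mul]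
          _ ≤ _ := by gcongr
    _ = δ⁻¹ * ∫⁻ w in t, ‖h w‖ₑ ^ 2 * EReal.exp (-u (A w)) :=
        lintegral_const_mul' _ _ (ENNReal.inv_ne_top.2 hδ0)
    _ < ⊤ := ENNReal.mul_lt_top (ENNReal.inv_lt_top.2 (pos_iff_ne_zero.2 hδ0))
        ((lintegral_mono_set fun w hw => (ht hw).2).trans_lt hint)

/-! ### `eN` -/

theorem eN_coe (N x : ℝ) : eN N x = ENNReal.ofReal (Real.exp (-(N * x))) := by
  rw [eN, ← EReal.coe_mul, ← EReal.coe_neg, EReal.exp_coe]

theorem eN_anti {N : ℝ} (hN : 0 ≤ N) {a b : EReal} (h : a ≤ b) : eN N b ≤ eN N a := by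
  refine EReal.exp_monotone (EReal.neg_le_neg_iff.2 ?_)
  exact mul_le_mul_of_nonneg_left h (EReal.coe_nonneg.2 hN)

theorem eN_add_coe {N : ℝ} (hN : 0 < N) (a : EReal) (x : ℝ) :
    eN N (a + x) = ENNReal.ofReal (Real.exp (-(N * x))) * eN N a := by
  have h0 : (0 : EReal) < N := EReal.coe_pos.2 hN
  have h1 : ENNReal.ofReal (Real.exp (-(N * x))) ≠ 0 := (ENNReal.ofReal_pos.2 (Real.exp_pos _)).ne'
  induction a with
  | bot => simp [eN, EReal.mul_bot_of_pos h0, ENNReal.mul_top h1]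
  | top => simp [eN, EReal.mul_top_of_pos h0]
  | coe y =>
    rw [← EReal.coe_add, eN_coe, eN_coe, ← ENNReal.ofReal_mul (Real.exp_pos _).le, ← Real.exp_add]
    congr 2; ring

theorem eN_ne_top {N : ℝ} (hN : 0 < N) {a : EReal} (ha : a ≠ ⊥) : eN N a ≠ ⊤ := by
  have h0 : (0 : EReal) < N := EReal.coe_pos.2 hN
  induction a with
  | bot => exact (ha rfl).elim
  | top => simp [eN, EReal.mul_top_of_pos h0]
  | coe y => rw [eN_coe]; exact ENNReal.ofReal_ne_top

variable {M : Type} [TopologicalSpace M] {A : HA E M}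

/-- locally bounded potentials -/
def WB (A : HA E M) (wt : A.ι → E → ℝ) : Prop :=
  ∀ i, ∀ z ∈ (A.e i).target, ∃ C : ℝ, ∀ᶠ w in 𝓝 z, |wt i w| ≤ C

theorem li_iff {wt : A.ι → E → ℝ} (hw : WB A wt) {u : M → EReal} {N : ℝ} (hN : 0 < N)
    {i : A.ι} {z : E} (hz : z ∈ (A.e i).target) :
    LI μ A (fun y => eN N (u y)) ((A.e i).symm z) ↔
      ∃ V ∈ 𝓝 z, ∫⁻ y in V, EReal.exp (-((N : EReal) * (u ((A.e i).symm y) + (wt i y : ℝ)))) ∂μ
        < ⊤ := by
  obtain ⟨C, hC⟩ := hw i z hz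
  have key : ∀ (F F' : E → ℝ≥0∞) {V : Set E}, V ∈ 𝓝 z → ∫⁻ y in V, F y ∂μ < ⊤ →
      (∀ y, |wt i y| ≤ C → F' y ≤ ENNReal.ofReal (Real.exp (N * C)) * F y) →
      ∃ V ∈ 𝓝 z, ∫⁻ y in V, F' y ∂μ < ⊤ := by
    intro F F' V hV hF hle
    obtain ⟨t, ht, hto, htz⟩ := _root_.mem_nhds_iff.1 (inter_mem hV hC)
    refine ⟨t, hto.mem_nhds htz, ?_⟩
    calc _ ≤ ∫⁻ y in t, ENNReal.ofReal (Real.exp (N * C)) * F y ∂μ :=
          setLIntegral_mono' hto.measurableSet fun y hy => hle y (ht hy).2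
      _ = _ * ∫⁻ y in t, F y ∂μ := lintegral_const_mul' _ _ ENNReal.ofReal_ne_top
      _ < ⊤ := ENNReal.mul_lt_top ENNReal.ofReal_lt_top
          ((lintegral_mono_set fun w hw => (ht hw).1).trans_lt hF)
  constructor
  · intro h
    obtain ⟨V, hV, hF⟩ := h.chart ((A.e i).map_target hz)
    rw [(A.e i).right_inv hz] at hV
    refine key _ _ hV hF fun y hy => ?_
    show eN N _ ≤ _
    rw [eN_add_coe hN]
    gcongr
    nlinarith [abs_le.1 hy]
  · rintro ⟨V, hV, hF⟩
    refine ⟨i, (A.e i).map_target hz, ?_⟩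
    rw [(A.e i).right_inv hz]
    refine key _ _ hV hF fun y hy => ?_
    show _ ≤ _ * eN N _
    rw [eN_add_coe hN, ← mul_assoc, ← ENNReal.ofReal_mul (Real.exp_pos _).le, ← Real.exp_add]
    refine le_mul_of_one_le_left' ?_
    rw [ENNReal.one_le_ofReal, Real.one_le_exp_iff]
    nlinarith [abs_le.1 hy]

theorem an_ni [Nontrivial E] {wt : A.ι → E → ℝ} (hw : WB A wt) {u : M → EReal} (hu : PW A wt u)
    {N : ℝ} (hN : 0 < N) : A.An univ {x | ¬ LI μ A (fun y => eN N (u y)) x} := by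
  intro x _
  obtain ⟨i, hi⟩ := A.cover x
  refine ⟨i, hi, (anAt_ni (μ := μ) (A.e i).open_target ((hu i).smul hN.le)
    ((A.e i).map_source hi)).congr ?_⟩
  filter_upwards [HA.ev_target hi] with z hz
  exact not_congr (li_iff hw hN hz).symm

/-- a weight is locally bounded above -/
theorem PW.bdd {wt : A.ι → E → ℝ} (hw : WB A wt) {u : M → EReal} (hu : PW A wt u) (x : M) :
    ∃ C : ℝ, ∀ᶠ y in 𝓝 x, u y ≤ C := by
  obtain ⟨i, hi⟩ := A.cover x
  have hz := (A.e i).map_source hi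
  obtain ⟨C, hC⟩ := hw i _ hz
  obtain ⟨b, hb, -⟩ := EReal.lt_iff_exists_real_btwn.1 ((hu i).lt_top _ hz)
  refine ⟨b + C, (HA.ev_chart hi).2 ?_⟩
  filter_upwards [hC, (hu i).uscAt (A.e i).open_target hz _ hb] with z h1 h2
  have := add_le_coe h2.le (le_refl ((-wt i z : ℝ) : EReal))
  rw [add_assoc, ← EReal.coe_add, add_neg_cancel, EReal.coe_zero, add_zero] at this
  exact this.trans (EReal.coe_le_coe_iff.2 (by linarith [(abs_le.1 h1).1]))

theorem PW.ne_top {wt : A.ι → E → ℝ} {u : M → EReal} (hu : PW A wt u) (x : M) : u x ≠ ⊤ := by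
  obtain ⟨i, hi⟩ := A.cover x
  have := (hu i).lt_top _ ((A.e i).map_source hi)
  rw [(A.e i).left_inv hi] at this
  intro h
  simp [h] at this

/-- an almost everywhere inequality between weights holds everywhere -/
theorem PW.le_of_ae {wt : A.ι → E → ℝ} {u v : M → EReal} (hu : PW A wt u) (hv : PW A wt v)
    {x : M} {W : Set M} (hW : W ∈ 𝓝 x) (a : ℝ) (h : AE μ A fun y => y ∈ W → u y ≤ v y + a) :
    u x ≤ v x + a := by
  obtain ⟨i, hi⟩ := A.cover x
  have hz := (A.e i).map_source hi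
  have := (hu i).le_of_ae μ (A.e i).open_target hz
    (g := fun z => v ((A.e i).symm z) + (wt i z : ℝ) + a)
    (((hv i).add_const a).uscAt (A.e i).open_target hz)
    (inter_mem ((HA.ev_chart hi).1 hW) (HA.ev_target hi))
    ((h i).mono fun z hz hz' => by
      rw [add_right_comm]
      exact add_le_add (hz hz'.2 hz'.1) le_rfl)
  simp only [(A.e i).left_inv hi] at this
  rw [add_right_comm] at this
  exact (EReal.addLECancellable_coe _).add_le_add_iff_right.1 this

end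

end Crest.Agent.X261.Eqv
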