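import Crest.Agent.X261.Eqv.B1

/-!
# Row 261, package EQV (helper30), file `B2`: the closeness relations of a two-point system
-/

set_option autoImplicit false
set_option linter.unusedSectionVars false
set_option linter.dupNamespace false

open Set Filter Topology MeasureTheory Metric
open scoped ENNReal

namespace Crest.Agent.X261.Eqv

open Crest.Agent.X261.Ans Crest.Agent.X261.Psh

noncomputable section

variable {E : Type} [NormedAddCommGroup E] [NormedSpace ℂ E] [FiniteDimensional ℂ E]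
  [MeasurableSpace E] [BorelSpace E] {μ : Measure E} [μ.IsAddHaarMeasure]
  {M : Type} [TopologicalSpace M] {A : HA E M} {G : Type} [Group G] [MulAction G M]

theorem le_coe_mono {a : EReal} {x y : ℝ} (h : a ≤ x) (hxy : x ≤ y) : a ≤ y :=
  h.trans (EReal.coe_le_coe_iff.2 hxy)

theorem tendsto_log_zero {c : ℝ} (hc : 0 < c) (b : ℝ) :
    ∀ᶠ r in 𝓝[>] (0 : ℝ), c * Real.log r ≤ b :=
  (Real.tendsto_log_nhdsGT_zero.const_mul_atBot hc).eventually (eventually_le_atBot b)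

theorem ev_lt {r : ℝ} (hr : 0 < r) : ∀ᶠ t in 𝓝[>] (0 : ℝ), t < r :=
  mem_nhdsWithin_of_mem_nhds (gt_mem_nhds hr)

namespace TP

variable (T : TP μ A G)

theorem wb : WB A T.wt := T.wt_bdd

theorem φ_real {x : M} (hx : x ∈ T.M0) : T.φ x = ((T.φ x).toReal : ℝ) :=
  (EReal.coe_toReal (T.φ_psh.ne_top x) (T.M0_fin x hx)).symm

theorem smul_cont (T : TP μ A G) (g : G) : Continuous fun x : M => g • x :=
  continuous_iff_continuousAt.2 fun x => (T.hol g x).1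

theorem tri1 (k : ℕ) : ∃ lam C : ℝ, 0 < lam ∧ lam ≤ 1 ∧ 0 ≤ C ∧ ∀ x ∈ T.M0, ∀ y ∈ T.M0,
    ∀ z ∈ T.M0, ∀ a : ℝ, T.Xi (k + 1) x y ≤ (-a : ℝ) → T.Xi (k + 1) y z ≤ (-a : ℝ) →
      T.Xi k x z ≤ (C - lam * a : ℝ) := by
  obtain ⟨lam, C, hl, h⟩ := T.tri k
  refine ⟨min lam 1, max C 0, lt_min hl one_pos, min_le_right _ _, le_max_right _ _,
    fun x hx y hy z hz a h1 h2 => ?_⟩
  rcases le_total 0 a with ha | ha
  · refine le_coe_mono (h x hx y hy z hz a ha h1 h2) ?_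
    nlinarith [le_max_left C 0, min_le_left lam 1]
  · refine le_coe_mono (x := 0) (T.Xi_le k x hx z hz) ?_
    nlinarith [le_max_right C 0, lt_min hl one_pos]

theorem Xi_diag (k : ℕ) {y : M} (hy : y ∈ T.M0) (a : ℝ) : T.Xi k y y ≤ a := by
  obtain ⟨c, hc, h⟩ := T.pole k
  obtain ⟨i, hi⟩ := A.cover y
  obtain ⟨C, V, hV, h⟩ := h i _ ((A.e i).map_source hi)
  obtain ⟨r, hr, hr0⟩ := ((tendsto_log_zero hc (a + (T.φ y).toReal - C)).and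
    self_mem_nhdsWithin).exists
  have := h _ (mem_of_mem_nhds hV) _ (mem_of_mem_nhds hV) (by rwa [(A.e i).left_inv hi])
    (by rwa [(A.e i).left_inv hi]) r hr0 (by simpa using le_of_lt hr0)
  rw [(A.e i).left_inv hi, T.φ_real hy, add_coe_le_iff] at this
  exact le_coe_mono this (by linarith)

/-- three steps -/
theorem tri3 (k : ℕ) : ∃ lam C : ℝ, 0 < lam ∧ lam ≤ 1 ∧ ∀ x ∈ T.M0, ∀ y ∈ T.M0,
    ∀ z ∈ T.M0, ∀ w ∈ T.M0, ∀ a : ℝ, T.Xi (k + 2) x y ≤ (-a : ℝ) → T.Xi (k + 2) y z ≤ (-a : ℝ) →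
      T.Xi (k + 2) z w ≤ (-a : ℝ) → T.Xi k x w ≤ (C - lam * a : ℝ) := by
  obtain ⟨l0, C0, h01, h02, h03, h0⟩ := T.tri1 k
  obtain ⟨l1, C1, h11, h12, h13, h1⟩ := T.tri1 (k + 1)
  refine ⟨l0 * l1, C0 + l0 * C1, mul_pos h01 h11, mul_le_one₀ h02 h11.le h12,
    fun x hx y hy z hz w hw a hxy hyz hzw => ?_⟩
  have e1 := h1 x hx y hy z hz a hxy hyz
  have e2 := h1 z hz w hw w hw a hzw (T.Xi_diag _ hw _)
  refine le_coe_mono (h0 x hx z hz w hw (l1 * a - C1) (le_coe_mono e1 (by linarith))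
    (le_coe_mono e2 (by linarith))) (by linarith)

theorem triQ (k : ℕ) (a : ℝ) : ∃ b : ℝ, ∀ x ∈ T.M0, ∀ y ∈ T.M0, ∀ z ∈ T.M0,
    T.Xi (k + 1) x y ≤ (-b : ℝ) → T.Xi (k + 1) y z ≤ (-b : ℝ) → T.Xi k x z ≤ (-a : ℝ) := by
  obtain ⟨l, C, h1, -, -, h⟩ := T.tri1 k
  refine ⟨(C + a) / l, fun x hx y hy z hz hxy hyz => le_coe_mono (h x hx y hy z hz _ hxy hyz) ?_⟩
  rw [mul_div_cancel₀ _ h1.ne']; linarith

theorem tri3Q (k : ℕ) (a : ℝ) : ∃ b : ℝ, ∀ x ∈ T.M0, ∀ y ∈ T.M0, ∀ z ∈ T.M0, ∀ w ∈ T.M0,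
    T.Xi (k + 2) x y ≤ (-b : ℝ) → T.Xi (k + 2) y z ≤ (-b : ℝ) → T.Xi (k + 2) z w ≤ (-b : ℝ) →
      T.Xi k x w ≤ (-a : ℝ) := by
  obtain ⟨l, C, h1, -, h⟩ := T.tri3 k
  refine ⟨(C + a) / l, fun x hx y hy z hz w hw hxy hyz hzw =>
    le_coe_mono (h x hx y hy z hz w hw _ hxy hyz hzw) ?_⟩
  rw [mul_div_cancel₀ _ h1.ne']; linarith

theorem monoQ {k k' : ℕ} (hk : k ≤ k') (a : ℝ) : ∃ b : ℝ, ∀ x ∈ T.M0, ∀ y ∈ T.M0,
    T.Xi k' x y ≤ (-b : ℝ) → T.Xi k x y ≤ (-a : ℝ) := by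
  induction k', hk using Nat.le_induction with
  | base => exact ⟨a, fun _ _ _ _ h => h⟩
  | succ k' _ ih =>
    obtain ⟨b, hb⟩ := ih
    obtain ⟨b', hb'⟩ := T.triQ k' b
    exact ⟨b', fun x hx y hy h => hb x hx y hy (hb' x hx y hy y hy h (T.Xi_diag _ hy _))⟩

/-! ### `cl` -/

variable {T}

theorem mem_cl {k : ℕ} {a : ℝ} {p q : M} : (p, q) ∈ T.cl k a ↔ ∀ W ∈ 𝓝 p, ∀ W' ∈ 𝓝 q,
    ∃ x ∈ W ∩ T.M0, ∃ y ∈ W' ∩ T.M0, T.Xi k x y ≤ (-a : ℝ) := by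
  rw [cl, mem_closure_iff_nhds]
  constructor
  · intro h W hW W' hW'
    obtain ⟨z, h1, h2⟩ := h _ (prod_mem_nhds hW hW')
    exact ⟨z.1, ⟨h1.1, h2.1⟩, z.2, ⟨h1.2, h2.2.1⟩, h2.2.2⟩
  · intro h t ht
    obtain ⟨W, hW, W', hW', hs⟩ := mem_nhds_prod_iff.1 ht
    obtain ⟨x, hx, y, hy, hxy⟩ := h W hW W' hW'
    exact ⟨(x, y), hs ⟨hx.1, hy.1⟩, hx.2, hy.2, hxy⟩

theorem isClosed_cl {k : ℕ} {a : ℝ} : IsClosed (T.cl k a) := isClosed_closure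

theorem mem_cl_of {k : ℕ} {a : ℝ} {x y : M} (hx : x ∈ T.M0) (hy : y ∈ T.M0)
    (h : T.Xi k x y ≤ (-a : ℝ)) : (x, y) ∈ T.cl k a := subset_closure ⟨hx, hy, h⟩

theorem cl_anti {k : ℕ} {a b : ℝ} (h : a ≤ b) : T.cl k b ⊆ T.cl k a :=
  closure_mono fun _ hq => ⟨hq.1, hq.2.1, le_coe_mono hq.2.2 (by linarith)⟩

theorem cl_symm {k : ℕ} {a : ℝ} {p q : M} (h : (p, q) ∈ T.cl k a) : (q, p) ∈ T.cl k a := by
  rw [mem_cl] at h ⊢
  intro W hW W' hW'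
  obtain ⟨x, hx, y, hy, hxy⟩ := h W' hW' W hW
  exact ⟨y, hy, x, hx, T.Xi_symm k x hx.2 y hy.2 ▸ hxy⟩

theorem cl_inv {k : ℕ} {a : ℝ} {p q : M} (g : G) (h : (p, q) ∈ T.cl k a) :
    (g • p, g • q) ∈ T.cl k a := by
  rw [mem_cl] at h ⊢
  intro W hW W' hW'
  obtain ⟨x, hx, y, hy, hxy⟩ := h _ ((T.smul_cont g).continuousAt.preimage_mem_nhds hW) _
    ((T.smul_cont g).continuousAt.preimage_mem_nhds hW')
  exact ⟨g • x, ⟨hx.1, T.M0_inv g x hx.2⟩, g • y, ⟨hy.1, T.M0_inv g y hy.2⟩,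
    (T.Xi_inv k g x hx.2 y hy.2).symm ▸ hxy⟩

theorem cl_mono (T : TP μ A G) {k k' : ℕ} (hk : k ≤ k') (a : ℝ) : ∃ b, T.cl k' b ⊆ T.cl k a := by
  obtain ⟨b, hb⟩ := T.monoQ hk a
  exact ⟨b, closure_mono fun q hq => ⟨hq.1, hq.2.1, hb _ hq.1 _ hq.2.1 hq.2.2⟩⟩

/-- infinitely close at level `k` -/
def R1 (T : TP μ A G) (k : ℕ) : Set (M × M) := {q | ∀ a, q ∈ T.cl k a}

theorem R1_anti {k k' : ℕ} (hk : k ≤ k') : T.R1 k' ⊆ T.R1 k := fun _ hq a =>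
  let ⟨b, hb⟩ := T.cl_mono hk a
  hb (hq b)

/-- points near which all typical points are close -/
def Near (T : TP μ A G) (k : ℕ) (x : M) : Prop :=
  ∀ a : ℝ, ∃ W ∈ 𝓝 x, ∀ z ∈ W ∩ T.M0, ∀ z' ∈ W ∩ T.M0, T.Xi k z z' ≤ (-a : ℝ)

theorem Near.anti {k k' : ℕ} (hk : k ≤ k') {x : M} (h : T.Near k' x) : T.Near k x := fun a =>
  let ⟨b, hb⟩ := T.monoQ hk a
  let ⟨W, hW, h⟩ := h b
  ⟨W, hW, fun z hz z' hz' => hb z hz.2 z' hz'.2 (h z hz z' hz')⟩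

theorem Near.inv {k : ℕ} {x : M} (h : T.Near k x) (g : G) : T.Near k (g • x) := fun a => by
  obtain ⟨W, hW, h⟩ := h a
  refine ⟨(fun y => g⁻¹ • y) ⁻¹' W, (T.smul_cont g⁻¹).continuousAt.preimage_mem_nhds
    (by simpa using hW), fun z hz z' hz' => ?_⟩
  rw [← T.Xi_inv k g⁻¹ z hz.2 z' hz'.2]
  exact h _ ⟨hz.1, T.M0_inv _ _ hz.2⟩ _ ⟨hz'.1, T.M0_inv _ _ hz'.2⟩

theorem exists_near (T : TP μ A G) (k : ℕ) : ∃ N₀ : ℝ, ∀ N, N₀ ≤ N → 0 < N → ∀ x,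
    LI μ A (fun y => eN N (T.φ y)) x → T.Near k x := by
  obtain ⟨c, hc, hp⟩ := T.pole (k + 1)
  set D : ℝ := ((Module.finrank ℝ E + 1 : ℕ) : ℝ) with hD
  refine ⟨2 * D / c, fun N hN hN0 x hx a => ?_⟩
  obtain ⟨b, hb⟩ := T.triQ k a
  obtain ⟨i, hi⟩ := A.cover x
  obtain ⟨C, V, hV, hp⟩ := hp i _ ((A.e i).map_source hi)
  obtain ⟨r₀, hr₀, hsub⟩ := Metric.mem_nhds_iff.1 hV
  obtain ⟨r, ⟨⟨w, hw1, hw2, hw3, hw4⟩, h1, h2, h3⟩, hr⟩ :=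
    (((hx.typ hi univ_mem (P := fun y => y ∈ T.M0) (T.M0_ae.mono fun _ h _ => h)).and
      ((tendsto_log_zero (half_pos hc) (-b - C - c * Real.log 2)).and
        ((ev_lt hr₀).and
          (ev_lt one_pos)))).and
      self_mem_nhdsWithin).exists
  have hr : 0 < r := hr
  have hlog : Real.log r < 0 := Real.log_neg hr h3
  have hφ : D * Real.log r < N * (T.φ ((A.e i).symm w)).toReal := by
    rw [T.φ_real hw3, eN_coe, ENNReal.ofReal_lt_ofReal_iff (by positivity)] at hw4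
    have := Real.log_lt_log (Real.exp_pos _) hw4
    rw [Real.log_exp, Real.log_inv, Real.log_pow] at this
    linarith
  have hφ' : c / 2 * Real.log r < (T.φ ((A.e i).symm w)).toReal := by
    refine lt_of_mul_lt_mul_left (lt_of_le_of_lt ?_ hφ) hN0.le
    have : 2 * D ≤ N * c := by rwa [div_le_iff₀ hc] at hN
    nlinarith
  have key : ∀ z ∈ (A.e i).source ∩ A.e i ⁻¹' ball (A.e i x) r ∩ T.M0,
      T.Xi (k + 1) z ((A.e i).symm w) ≤ (-b : ℝ) := by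
    intro z hz
    have := hp (A.e i z) (hsub (ball_subset_ball h2.le hz.1.2)) w
      (hsub (ball_subset_ball h2.le hw1)) (by rw [(A.e i).left_inv hz.1.1]; exact hz.2) hw3
      (2 * r) (by positivity) (by
        rw [← dist_eq_norm]
        linarith [dist_triangle_right (A.e i z) w (A.e i x), mem_ball.1 hz.1.2, mem_ball.1 hw1])
    rw [(A.e i).left_inv hz.1.1, T.φ_real hw3, add_coe_le_iff,
      Real.log_mul two_ne_zero hr.ne'] at this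
    exact le_coe_mono this (by nlinarith)
  refine ⟨(A.e i).source ∩ A.e i ⁻¹' ball (A.e i x) r, inter_mem (HA.ev_source hi)
    (((A.e i).continuousAt hi).preimage_mem_nhds (ball_mem_nhds _ hr)), fun z hz z' hz' => ?_⟩
  exact hb z hz.2 _ hw3 z' hz'.2 (key z hz) (T.Xi_symm _ _ hz'.2 _ hw3 ▸ key z' hz')

theorem cl_comp (T : TP μ A G) (k : ℕ) (a : ℝ) : ∃ b : ℝ, ∀ p q r : M, T.Near (k + 2) q →
    (p, q) ∈ T.cl (k + 2) b → (q, r) ∈ T.cl (k + 2) b → (p, r) ∈ T.cl k a := by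
  obtain ⟨b, hb⟩ := T.tri3Q k a
  refine ⟨b, fun p q r hq h1 h2 => mem_cl.2 fun W hW W' hW' => ?_⟩
  obtain ⟨V, hV, hq⟩ := hq b
  obtain ⟨x, hx, y, hy, hxy⟩ := mem_cl.1 h1 W hW V hV
  obtain ⟨z, hz, w, hw, hzw⟩ := mem_cl.1 h2 V hV W' hW'
  exact ⟨x, hx, w, hw, hb x hx.2 y hy.2 z hz.2 w hw.2 hxy (hq y hy z hz) hzw⟩

theorem cl_upg (T : TP μ A G) (k : ℕ) (a : ℝ) : ∃ b : ℝ, ∀ p q : M, T.Near (k + 2) p →
    T.Near (k + 2) q → (p, q) ∈ T.cl (k + 2) b → ∃ W ∈ 𝓝 p, ∃ W' ∈ 𝓝 q,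
      ∀ x ∈ W ∩ T.M0, ∀ y ∈ W' ∩ T.M0, T.Xi k x y ≤ (-a : ℝ) := by
  obtain ⟨b, hb⟩ := T.tri3Q k a
  refine ⟨b, fun p q hp hq h => ?_⟩
  obtain ⟨V, hV, hp⟩ := hp b
  obtain ⟨V', hV', hq⟩ := hq b
  obtain ⟨x, hx, y, hy, hxy⟩ := mem_cl.1 h V hV V' hV'
  exact ⟨V, hV, V', hV', fun z hz w hw =>
    hb z hz.2 x hx.2 y hy.2 w hw.2 (hp z hz x hx) hxy (hq y hy w hw)⟩

theorem R1_comp {k : ℕ} {p q r : M} (hq : T.Near (k + 2) q) (h1 : (p, q) ∈ T.R1 (k + 2))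
    (h2 : (q, r) ∈ T.R1 (k + 2)) : (p, r) ∈ T.R1 k := fun a =>
  let ⟨b, hb⟩ := T.cl_comp k a
  hb p q r hq (h1 b) (h2 b)

theorem diag_R1 (T : TP μ A G) (k : ℕ) (x : M) : (x, x) ∈ T.R1 k := fun a => by
  refine mem_cl.2 fun W hW W' hW' => ?_
  obtain ⟨y, h1, h2⟩ := T.M0_ae.exists_mem (inter_mem hW hW')
  exact ⟨y, ⟨h1.1, h2⟩, y, ⟨h1.2, h2⟩, T.Xi_diag k h2 _⟩

/-! ### comparison with the non-integrability loci of `u k` -/

theorem u_eq' (T : TP μ A G) (k : ℕ) : AE (μ.prod μ) (A.prod A) fun q => q.1 ∈ T.M0 ∧ q.2 ∈ T.M0 ∧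
    T.u k q = T.Xi k q.1 q.2 + (((T.φ q.1).toReal + (T.φ q.2).toReal : ℝ) : EReal) :=
  ((T.M0_ae.fst A).and ((T.M0_ae.snd A).and (T.u_eq k))).mono fun q hq =>
    ⟨hq.1, hq.2.1, by rw [hq.2.2, EReal.coe_add, ← T.φ_real hq.1, ← T.φ_real hq.2.1, add_assoc]⟩

theorem li_of_not_cl {k : ℕ} {a N : ℝ} (hN : 0 < N) {p q : M}
    (hp : LI μ A (fun y => eN N (T.φ y)) p) (hq : LI μ A (fun y => eN N (T.φ y)) q)
    (h : (p, q) ∉ T.cl k a) : LI (μ.prod μ) (A.prod A) (fun z => eN N (T.u k z)) (p, q) := by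
  refine (hp.prod hq (T.M0_ae.mono fun x hx => eN_ne_top hN (T.M0_fin x hx))).mono
    (isClosed_cl.isOpen_compl.mem_nhds h) (c := ENNReal.ofReal (Real.exp (N * a)))
    ENNReal.ofReal_ne_top ((T.u_eq' k).mono fun z hz hW => ?_)
  have h1 : ((-a : ℝ) : EReal) ≤ T.Xi k z.1 z.2 :=
    le_of_lt (lt_of_not_ge fun h => hW (mem_cl_of hz.1 hz.2.1 h))
  rw [hz.2.2]
  refine (eN_anti hN.le (add_le_add h1 le_rfl)).trans (le_of_eq ?_)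
  rw [T.φ_real hz.1, T.φ_real hz.2.1, ← EReal.coe_add, eN_coe, eN_coe, eN_coe,
    ← ENNReal.ofReal_mul (Real.exp_pos _).le, ← ENNReal.ofReal_mul (Real.exp_pos _).le,
    ← Real.exp_add, ← Real.exp_add]
  simp only [EReal.toReal_coe]
  congr 2; ring

theorem exists_pole (T : TP μ A G) (k : ℕ) : ∃ N₀ : ℝ, ∀ N, N₀ ≤ N → 0 < N → ∀ q ∈ T.R1 (k + 2),
    ¬ LI (μ.prod μ) (A.prod A) (fun z => eN N (T.u k z)) q := by
  obtain ⟨c, hc, hp⟩ := T.pole (k + 2)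
  obtain ⟨l, C₀, hl0, hl1, ht⟩ := T.tri3 k
  set D : ℝ := ((Module.finrank ℝ (E × E) + 1 : ℕ) : ℝ) with hD
  refine ⟨(D + 1) / (l * c), fun N hN hN0 ⟨p, q⟩ hq hli => ?_⟩
  have hNc : D + 1 ≤ N * (l * c) := by rwa [div_le_iff₀ (mul_pos hl0 hc)] at hN
  obtain ⟨i, hi⟩ := A.cover p
  obtain ⟨j, hj⟩ := A.cover q
  obtain ⟨C₁, V₁, hV₁, hp₁⟩ := hp i _ ((A.e i).map_source hi)
  obtain ⟨C₂, V₂, hV₂, hp₂⟩ := hp j _ ((A.e j).map_source hj)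
  obtain ⟨B₁, hB₁⟩ := T.φ_psh.bdd T.wb p
  obtain ⟨B₂, hB₂⟩ := T.φ_psh.bdd T.wb q
  obtain ⟨r₁, hr₁, hs₁⟩ := Metric.mem_nhds_iff.1 (inter_mem hV₁ ((HA.ev_chart hi).1 hB₁))
  obtain ⟨r₂, hr₂, hs₂⟩ := Metric.mem_nhds_iff.1 (inter_mem hV₂ ((HA.ev_chart hj).1 hB₂))
  set C := max C₁ C₂
  set B := max (max B₁ B₂) 0
  have hB0 : 0 ≤ B := le_max_right _ _
  have hij : (p, q) ∈ ((A.prod A).e (i, j)).source := ⟨hi, hj⟩
  obtain ⟨r, ⟨⟨w, hw1, hw2, ⟨hw3, hw4, hw5⟩, hw6⟩, h1, h2, h3, h4⟩, hr⟩ :=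
    (((hli.typ hij univ_mem ((T.u_eq' k).mono fun _ h _ => h)).and
      ((tendsto_log_zero one_pos (-(N * (C₀ + l * (c * Real.log 2 + C) + 2 * B)))).and
        ((ev_lt hr₁).and
          ((ev_lt hr₂).and
          (ev_lt one_pos))))).and
      self_mem_nhdsWithin).exists
  have hr : 0 < r := hr
  have hlog : Real.log r < 0 := Real.log_neg hr h4
  have hw1' : w.1 ∈ ball (A.e i p) r ∧ w.2 ∈ ball (A.e j q) r := by
    have : w ∈ ball (A.e i p, A.e j q) r := hw1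
    rwa [← ball_prod_same] at this
  set z₁ := (A.e i).symm w.1 with hz₁
  set z₂ := (A.e j).symm w.2 with hz₂
  have hw3 : z₁ ∈ T.M0 := hw3
  have hw4 : z₂ ∈ T.M0 := hw4
  have hw5 : T.u k (z₁, z₂) = T.Xi k z₁ z₂ + (((T.φ z₁).toReal + (T.φ z₂).toReal : ℝ) : EReal) :=
    hw5
  have hw6 : eN N (T.u k (z₁, z₂)) < ENNReal.ofReal ((r ^ (Module.finrank ℝ (E × E) + 1))⁻¹) :=
    hw6
  set f₁ := (T.φ z₁).toReal
  set f₂ := (T.φ z₂).toReal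
  have hf₁ : f₁ ≤ B := by
    have := (hs₁ (ball_subset_ball h2.le hw1'.1)).2
    have h' : T.φ z₁ ≤ B₁ := this
    rw [T.φ_real hw3, EReal.coe_le_coe_iff] at h'
    exact h'.trans ((le_max_left _ _).trans (le_max_left _ _))
  have hf₂ : f₂ ≤ B := by
    have := (hs₂ (ball_subset_ball h3.le hw1'.2)).2
    have h' : T.φ z₂ ≤ B₂ := this
    rw [T.φ_real hw4, EReal.coe_le_coe_iff] at h'
    exact h'.trans ((le_max_right _ _).trans (le_max_left _ _))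
  set a := min f₁ f₂ - (c * (Real.log 2 + Real.log r) + C) with ha
  obtain ⟨x, hx, y, hy, hxy⟩ := mem_cl.1 (hq a) ((A.e i).source ∩ A.e i ⁻¹' ball (A.e i p) r)
    (inter_mem (HA.ev_source hi) (((A.e i).continuousAt hi).preimage_mem_nhds (ball_mem_nhds _ hr)))
    ((A.e j).source ∩ A.e j ⁻¹' ball (A.e j q) r)
    (inter_mem (HA.ev_source hj) (((A.e j).continuousAt hj).preimage_mem_nhds (ball_mem_nhds _ hr)))
  have e1 : T.Xi (k + 2) x z₁ ≤ (-a : ℝ) := by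
    have := hp₁ (A.e i x) (hs₁ (ball_subset_ball h2.le hx.1.2)).1 w.1
      (hs₁ (ball_subset_ball h2.le hw1'.1)).1 (by rw [(A.e i).left_inv hx.1.1]; exact hx.2) hw3
      (2 * r) (by positivity) (by
        rw [← dist_eq_norm]
        linarith [dist_triangle_right (A.e i x) w.1 (A.e i p), mem_ball.1 hx.1.2,
          mem_ball.1 hw1'.1])
    rw [(A.e i).left_inv hx.1.1, ← hz₁, T.φ_real hw3, add_coe_le_iff,
      Real.log_mul two_ne_zero hr.ne'] at this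
    exact le_coe_mono this (by linarith [min_le_left f₁ f₂, le_max_left C₁ C₂])
  have e2 : T.Xi (k + 2) y z₂ ≤ (-a : ℝ) := by
    have := hp₂ (A.e j y) (hs₂ (ball_subset_ball h3.le hy.1.2)).1 w.2
      (hs₂ (ball_subset_ball h3.le hw1'.2)).1 (by rw [(A.e j).left_inv hy.1.1]; exact hy.2) hw4
      (2 * r) (by positivity) (by
        rw [← dist_eq_norm]
        linarith [dist_triangle_right (A.e j y) w.2 (A.e j q), mem_ball.1 hy.1.2,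
          mem_ball.1 hw1'.2])
    rw [(A.e j).left_inv hy.1.1, ← hz₂, T.φ_real hw4, add_coe_le_iff,
      Real.log_mul two_ne_zero hr.ne'] at this
    exact le_coe_mono this (by linarith [min_le_right f₁ f₂, le_max_right C₁ C₂])
  have e3 := ht z₁ hw3 x hx.2 y hy.2 z₂ hw4 a (T.Xi_symm _ _ hx.2 _ hw3 ▸ e1) hxy e2
  have e4 : T.u k (z₁, z₂) ≤ ((C₀ + l * (c * (Real.log 2 + Real.log r) + C) + 2 * B : ℝ) : EReal) := by
    rw [hw5]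
    refine le_coe_mono (add_le_coe e3 le_rfl) ?_
    rcases le_total f₁ f₂ with h | h
    · rw [ha, min_eq_left h]; nlinarith
    · rw [ha, min_eq_right h]; nlinarith
  have e5 := (eN_anti hN0.le e4).trans_lt hw6
  rw [eN_coe, ENNReal.ofReal_lt_ofReal_iff (by positivity)] at e5
  have := Real.log_lt_log (Real.exp_pos _) e5
  rw [Real.log_exp, Real.log_inv, Real.log_pow, ← hD] at this
  nlinarith

end TP

end

end Crest.Agent.X261.Eqv
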