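import Crest.Agent.X261.Eqv.Defs2
import Crest.Agent.X261.Ans.Dec
import Crest.Agent.X261.Ans.Dim

/-!
# Row 261, package EQV (helper30), file `C1`: graphs, germs of biholomorphisms, lifting
-/

set_option autoImplicit false
set_option linter.unusedSectionVars false
set_option linter.dupNamespace false

open Set Filter Topology Metric Module

namespace Crest.Agent.X261.Eqv

open Crest.Agent.X261.Ans

noncomputable section

/-- an analytic set which is a graph over a somewhere dense set is a holomorphic graph -/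
theorem graph_of {p : ℕ} {F : Type} [NormedAddCommGroup F] [NormedSpace ℂ F]
    [FiniteDimensional ℂ F] {Γ : Set ((Fin p → ℂ) × F)} {a : Fin p → ℂ} {b : F}
    (hab : (a, b) ∈ Γ) (hΓ : AnAt Γ (a, b)) {N : Set ((Fin p → ℂ) × F)} (hN : N ∈ 𝓝 (a, b))
    (fn : ∀ s t t', (s, t) ∈ N ∩ Γ → (s, t') ∈ N ∩ Γ → t = t')
    (op : ∀ O ∈ 𝓝 (a, b), ∃ s, Prod.fst '' (Γ ∩ O) ∈ 𝓝 s) :
    ∃ h : (Fin p → ℂ) → F, AnalyticAt ℂ h a ∧ h a = b ∧ ∀ᶠ s in 𝓝 a, (s, h s) ∈ Γ := by
  have : ProperSpace F := FiniteDimensional.proper ℂ F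
  have iso : ∀ᶠ y in 𝓝[≠] (a, b), y ∈ Γ → y.1 ≠ a := by
    filter_upwards [mem_nhdsWithin_of_mem_nhds hN, self_mem_nhdsWithin] with y h1 h2 h3 h4
    refine h2 (Prod.ext h4 (fn a _ _ ?_ ⟨mem_of_mem_nhds hN, hab⟩))
    rw [← h4]; exact ⟨h1, h3⟩
  have img : ∀ W ∈ 𝓝 (a, b), Prod.fst '' (Γ ∩ W) ∈ 𝓝 a := fun W hW =>
    Dm.image_mem_nhds hΓ analyticAt_fst iso (fun O hO hc => by
      obtain ⟨s, hs⟩ := op O hO
      exact (hc.image fun _ _ => analyticAt_fst).not_mem_nhds s hs) hW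
  obtain ⟨N₁, hN₁, hcov⟩ := SDim.cov hΓ ⟨ContinuousLinearMap.fst ℂ _ _, iso⟩
  obtain ⟨ε, hε, hsub⟩ := nhds_basis_closedBall.mem_iff.1
    (inter_mem (inter_mem hN (interior_mem_nhds.2 hN₁)) hΓ.eventually)
  have hK : IsCompact (Γ ∩ closedBall (a, b) ε) := by
    refine (isCompact_closedBall (a, b) ε).of_isClosed_subset ?_ inter_subset_right
    refine closure_subset_iff_isClosed.1 fun y hy => ?_
    have h1 : y ∈ closedBall (a, b) ε :=
      isClosed_closedBall.closure_subset (closure_mono inter_subset_right hy)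
    exact ⟨(hsub h1).2.mem_of_closure (closure_mono inter_subset_left hy), h1⟩
  have hex : ∀ s, ∃ t, s ∈ Prod.fst '' (Γ ∩ closedBall (a, b) ε) →
      (s, t) ∈ Γ ∩ closedBall (a, b) ε := fun s => by
    by_cases h : s ∈ Prod.fst '' (Γ ∩ closedBall (a, b) ε)
    · obtain ⟨q, hq, rfl⟩ := h
      exact ⟨q.2, fun _ => hq⟩
    · exact ⟨b, fun h' => absurd h' h⟩
  choose h hh using hex
  set U := interior (Prod.fst '' (Γ ∩ closedBall (a, b) ε))
  have haU : a ∈ U := mem_interior_iff_mem_nhds.2 (img _ (closedBall_mem_nhds _ hε))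
  have hU : ∀ s ∈ U, (s, h s) ∈ Γ ∩ closedBall (a, b) ε := fun s hs => hh s (interior_subset hs)
  have uq : ∀ s t t', (s, t) ∈ Γ ∩ closedBall (a, b) ε → (s, t') ∈ Γ ∩ closedBall (a, b) ε →
      t = t' := fun s t t' h1 h2 => fn s t t' ⟨(hsub h1.2).1.1, h1.1⟩ ⟨(hsub h2.2).1.1, h2.1⟩
  have hc : ContinuousOn h U := fun s hs => by
    refine ContinuousAt.continuousWithinAt ?_
    have : Tendsto (fun s => (s, h s)) (𝓝 s) (𝓝 (s, h s)) := by
      refine hK.tendsto_nhds_of_unique_mapClusterPt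
        ((isOpen_interior.eventually_mem hs).mono hU) fun q hq hcl => ?_
      have e : q.1 = s := by
        have := hcl.continuousAt_comp continuous_fst.continuousAt
        exact eq_of_nhds_neBot (by simpa [MapClusterPt, ClusterPt, Function.comp_def] using this)
      refine Prod.ext e (uq s _ _ ?_ (hU s hs))
      rw [← e]; exact hq
    exact (continuous_snd.tendsto _).comp this
  refine ⟨h, graph_hol (Γ := Γ ∩ interior N₁) isOpen_interior hc (fun s hs => ⟨⟨(hU s hs).1,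
    (hsub (hU s hs).2).1.2⟩, (hsub (hU s hs).2).2.congr ?_⟩) ?_ a haU,
    uq a _ _ (hU a haU) ⟨hab, mem_closedBall_self hε.le⟩,
    (isOpen_interior.eventually_mem haU).mono fun s hs => (hU s hs).1⟩
  · filter_upwards [isOpen_interior.mem_nhds (hsub (hU s hs).2).1.2] with y hy
    exact ⟨fun h => ⟨h, hy⟩, fun h => h.1⟩
  · rw [finrank_fin_fun]
    exact hcov.sub (inter_subset_inter_right _ interior_subset)

variable {E F H : Type} [NormedAddCommGroup E] [NormedSpace ℂ E] [FiniteDimensional ℂ E]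
  [NormedAddCommGroup F] [NormedSpace ℂ F] [FiniteDimensional ℂ F]
  [NormedAddCommGroup H] [NormedSpace ℂ H] [FiniteDimensional ℂ H]
  {M N P : Type} [TopologicalSpace M] [TopologicalSpace N] [TopologicalSpace P]
  {A : HA E M} {B : HA F N} {C : HA H P}

/-- germ of biholomorphism -/
structure LB (A : HA E M) (B : HA F N) (f : M → N) (g : N → M) (w : M) (z : N) : Prop where
  eq : f w = z
  hf : A.Hol B f w
  hg : B.Hol A g z
  gf : ∀ᶠ x in 𝓝 w, g (f x) = x
  fg : ∀ᶠ y in 𝓝 z, f (g y) = y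

namespace LB

variable {f : M → N} {g : N → M} {w : M} {z : N}

theorem eq' (h : LB A B f g w z) : g z = w := h.eq ▸ h.gf.self_of_nhds

theorem symm (h : LB A B f g w z) : LB B A g f z w := ⟨h.eq', h.hg, h.hf, h.fg, h.gf⟩

theorem tendsto (h : LB A B f g w z) : Tendsto f (𝓝 w) (𝓝 z) := h.eq ▸ h.hf.1.tendsto

theorem ev (h : LB A B f g w z) : ∀ᶠ x in 𝓝 w, LB A B f g x (f x) := by
  filter_upwards [h.hf.eventually, h.tendsto.eventually h.hg.eventually, h.gf.eventually_nhds,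
    h.tendsto.eventually h.fg.eventually_nhds] with x h1 h2 h3 h4 using ⟨rfl, h1, h2, h3, h4⟩

theorem refl (A : HA E M) (w : M) : LB A A (fun x => x) (fun x => x) w w :=
  ⟨rfl, A.hol_id w, A.hol_id w, Eventually.of_forall fun _ => rfl,
    Eventually.of_forall fun _ => rfl⟩

theorem trans {f' : N → P} {g' : P → N} {u : P} (h : LB A B f g w z) (h' : LB B C f' g' z u) :
    LB A C (fun x => f' (f x)) (fun y => g (g' y)) w u := by
  refine ⟨by rw [h.eq, h'.eq], h'.hf.comp_of_eq h.hf h.eq, h.hg.comp_of_eq h'.hg h'.eq', ?_, ?_⟩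
  · filter_upwards [h.gf, h.tendsto.eventually h'.gf] with x h1 h2
    rw [h2, h1]
  · filter_upwards [h'.fg, h'.symm.tendsto.eventually h.fg] with x h1 h2
    rw [h2, h1]

theorem map_eq (h : LB A B f g w z) : map f (𝓝 w) = 𝓝 z := by
  refine le_antisymm h.tendsto fun s hs => ?_
  filter_upwards [h.fg, h.symm.tendsto.eventually hs] with y h1 h2
  rwa [← h1]

/-- the preimage of a closed nowhere dense set is nowhere dense -/
theorem ex (h : LB A B f g w z) {Z : Set N} (hZ : IsClosed Z) (hd : Dense Zᶜ) {p : M → Prop}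
    (hp : ∀ᶠ y in 𝓝 w, p y) : ∃ y, ∀ᶠ y' in 𝓝 y, p y' ∧ f y' ∉ Z := by
  obtain ⟨_, h1, y, h2, rfl⟩ := hd.inter_nhds_nonempty
    (h.map_eq ▸ image_mem_map (hp.eventually_nhds.and h.ev) :
      f '' {x | (∀ᶠ y in 𝓝 x, p y) ∧ LB A B f g x (f x)} ∈ 𝓝 z)
  exact ⟨y, h2.1.and (h2.2.tendsto.eventually (hZ.isOpen_compl.mem_nhds h1))⟩

theorem ex3 {f₁ g₁ f₂ g₂ : M → M} {x z₁ z₂ : M} (h₁ : LB A A f₁ g₁ x z₁) (h₂ : LB A A f₂ g₂ x z₂)
    {Z : Set M} (hZ : IsClosed Z) (hd : Dense Zᶜ) :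
    ∃ᶠ y in 𝓝 x, y ∉ Z ∧ f₁ y ∉ Z ∧ f₂ y ∉ Z := by
  rw [frequently_iff]
  intro O hO
  obtain ⟨y₀, h0⟩ := (refl A x).ex hZ hd ((h₁.ev.and h₂.ev).and hO)
  obtain ⟨y₁, h1⟩ := h0.self_of_nhds.1.1.1.ex hZ hd h0
  obtain ⟨y₂, h2⟩ := h1.self_of_nhds.1.1.1.2.ex hZ hd h1
  have := h2.self_of_nhds
  exact ⟨y₂, this.1.1.1.2, this.1.1.2, this.1.2, this.2⟩

end LB

/-- product coordinates of a submersion -/
theorem exists_prod {π : M → F} {w : M} (h : A.Subm (HA.self F) π w) :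
    ∃ (ρ : M → Fin (finrank ℂ E - finrank ℂ F) → ℂ)
      (σ : F × (Fin (finrank ℂ E - finrank ℂ F) → ℂ) → M),
      LB A (HA.self _) (fun y => (π y, ρ y)) σ w (π w, ρ w) := by
  obtain ⟨i, hi⟩ := A.cover w
  obtain ⟨s, L, hs, hL⟩ := Rg.exists_compl ((HA.subm_self_iff h.1 hi).1 h)
  obtain rfl : s = finrank ℂ E - finrank ℂ F := by omega
  have h1 : A.Hol (HA.self _) (fun y => L (A.e i y)) w := (HA.hol_chart hi).an_comp (L.analyticAt _)
  have h2 := h.1.pair h1
  have h3 : A.Subm (HA.self _) (fun y => (π y, L (A.e i y))) w := by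
    rw [HA.subm_self_iff h2 hi]
    have e : (fun z => (π ((A.e i).symm z), L (A.e i ((A.e i).symm z)))) =ᶠ[𝓝 (A.e i w)]
        fun z => (π ((A.e i).symm z), L z) :=
      (HA.ev_target hi).mono fun z hz => by simp only [(A.e i).right_inv hz]
    rw [e.fderiv_eq, (((HA.hol_self_iff hi).1 h.1).differentiableAt.hasFDerivAt.prodMk
      L.hasFDerivAt).fderiv]
    refine (LinearMap.injective_iff_surjective_of_finrank_eq_finrank
      (f := ((fderiv ℂ (fun z => π ((A.e i).symm z)) (A.e i w)).prod L).toLinearMap)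
      (by rw [finrank_prod, finrank_fin_fun]; omega)).1 ((injective_iff_map_eq_zero _).2 ?_)
    exact fun v hv => hL v (congrArg Prod.fst hv) (congrArg Prod.snd hv)
  obtain ⟨σ, k1, k2, k3⟩ := h3.inv (by rw [finrank_prod, finrank_fin_fun]; omega)
  exact ⟨fun y => L (A.e i y), σ, rfl, h2, k1, k2, k3⟩

/-- lifting of germs of biholomorphisms of the transversals -/
theorem exists_lift {π π' : M → F} {w z : M} (h : A.Subm (HA.self F) π w)
    (h' : A.Subm (HA.self F) π' z) {k k' : F → F}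
    (hk : LB (HA.self F) (HA.self F) k k' (π w) (π' z)) :
    ∃ f g : M → M, LB A A f g w z ∧ ∀ᶠ x in 𝓝 w, π' (f x) = k (π x) := by
  obtain ⟨ρ, σ, h1⟩ := exists_prod h
  obtain ⟨ρ', σ', h2⟩ := exists_prod h'
  have h3 : LB (HA.self _) (HA.self _) (fun q => (k q.1, q.2 + (ρ' z - ρ w)))
      (fun q => (k' q.1, q.2 - (ρ' z - ρ w))) (π w, ρ w) (π' z, ρ' z) := by
    refine ⟨by simp [hk.eq], HA.self_hol_iff.2 ?_, HA.self_hol_iff.2 ?_, ?_, ?_⟩
    · exact ((HA.self_hol_iff.1 hk.hf).comp_of_eq analyticAt_fst rfl).prod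
        (analyticAt_snd.add analyticAt_const)
    · exact ((HA.self_hol_iff.1 hk.hg).comp_of_eq analyticAt_fst rfl).prod
        (analyticAt_snd.sub analyticAt_const)
    · filter_upwards [(continuous_fst.tendsto _).eventually hk.gf] with q hq
      simp [hq]
    · filter_upwards [(continuous_fst.tendsto _).eventually hk.fg] with q hq
      simp [hq]
  refine ⟨_, _, (h1.trans h3).trans h2.symm, ?_⟩
  filter_upwards [(h1.trans h3).tendsto.eventually h2.fg] with x hx
  exact congrArg Prod.fst hx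

end

end Crest.Agent.X261.Eqv
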