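import Crest.Agent.X261.Eqv.C1

/-!
# Row 261, package EQV (helper30), file `C2`: the leaf relation of a graded system
-/

set_option autoImplicit false
set_option linter.unusedSectionVars false
set_option linter.dupNamespace false

open Set Filter Topology Metric Module

namespace Crest.Agent.X261.Eqv

open Crest.Agent.X261.Ans Crest.Agent.X261.Loc

noncomputable section

variable {E : Type} [NormedAddCommGroup E] [NormedSpace ℂ E] [FiniteDimensional ℂ E]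
  {M : Type} [TopologicalSpace M] [PreconnectedSpace M] {A : HA E M}
  {G : Type} [Group G] [MulAction G M]

namespace GS

variable {Q : GS A G}

/-- the leaf relation -/
def LR (Q : GS A G) (w z : M) : Prop :=
  ∃ f g : M → M, LB A A f g w z ∧ ∀ᶠ x in 𝓝 w, ∀ k, (x, f x) ∈ Q.V k

theorem ex3 (Q : GS A G) (k : ℕ) {f₁ g₁ f₂ g₂ : M → M} {x z₁ z₂ : M} (h₁ : LB A A f₁ g₁ x z₁)
    (h₂ : LB A A f₂ g₂ x z₂) : ∃ᶠ y in 𝓝 x, y ∉ Q.B k ∧ f₁ y ∉ Q.B k ∧ f₂ y ∉ Q.B k :=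
  h₁.ex3 h₂ (Q.an_B k).isClosed ((Q.an_B k).dense_compl (Q.ne_B k))

theorem mem_of_freq {Z : Set (M × M)} (hZ : IsClosed Z) {f g : M → M} {x z : M}
    (h : LB A A f g x z) (hf : ∃ᶠ y in 𝓝 x, (y, f y) ∈ Z) : (x, z) ∈ Z :=
  hZ.mem_of_frequently_of_tendsto hf (tendsto_id.prodMk_nhds h.tendsto)

theorem comp_ev {f₁ g₁ f₂ g₂ : M → M} {x z₁ z₂ : M} (h₁ : LB A A f₁ g₁ x z₁)
    (h₂ : LB A A f₂ g₂ x z₂) (e₁ : ∀ᶠ y in 𝓝 x, ∀ k, (y, f₁ y) ∈ Q.V k)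
    (e₂ : ∀ᶠ y in 𝓝 x, ∀ k, (f₁ y, f₂ y) ∈ Q.V k) : ∀ᶠ y in 𝓝 x, ∀ k, (y, f₂ y) ∈ Q.V k := by
  filter_upwards [h₁.ev, h₂.ev, e₁.eventually_nhds, e₂.eventually_nhds] with y a1 a2 a3 a4 k
  refine mem_of_freq (Q.an_V k).isClosed a2 ?_
  refine ((Q.ex3 (k + 4) a1 a2).and_eventually (a3.and a4)).mono fun u hu => ?_
  exact Q.comp k _ _ _ hu.1.1 hu.1.2.1 hu.1.2.2 (hu.2.1 _) (hu.2.2 _)

theorem lb_smul (Q : GS A G) (g : G) (x : M) :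
    LB A A (fun y => g • y) (fun y => g⁻¹ • y) x (g • x) :=
  ⟨rfl, Q.hol g x, Q.hol _ _, Eventually.of_forall fun y => inv_smul_smul g y,
    Eventually.of_forall fun y => smul_inv_smul g y⟩

namespace LR

theorem mem {w z : M} (h : Q.LR w z) (k : ℕ) : (w, z) ∈ Q.V k := by
  obtain ⟨f, g, h1, h2⟩ := h
  exact h1.eq ▸ h2.self_of_nhds k

theorem refl (Q : GS A G) (w : M) : Q.LR w w :=
  ⟨_, _, LB.refl A w, Eventually.of_forall fun x k => Q.diag k x⟩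

theorem symm {w z : M} (h : Q.LR w z) : Q.LR z w := by
  obtain ⟨f, g, h1, h2⟩ := h
  refine ⟨g, f, h1.symm, ?_⟩
  filter_upwards [h1.fg, h1.symm.tendsto.eventually h2] with y a1 a2 k
  have := Q.symm k _ _ (a2 k)
  rwa [a1] at this

theorem trans {w z u : M} (h : Q.LR w z) (h' : Q.LR z u) : Q.LR w u := by
  obtain ⟨f, g, h1, h2⟩ := h
  obtain ⟨f', g', h3, h4⟩ := h'
  exact ⟨_, _, h1.trans h3, comp_ev h1 (h1.trans h3) h2 (h1.tendsto.eventually h4)⟩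

theorem smul {w z : M} (h : Q.LR w z) (a : G) : Q.LR (a • w) (a • z) := by
  obtain ⟨f, g, h1, h2⟩ := h
  refine ⟨_, _, ((Q.lb_smul a w).symm.trans h1).trans (Q.lb_smul a z), ?_⟩
  filter_upwards [(Q.lb_smul a w).symm.tendsto.eventually h2] with y hy k
  simpa using Q.inv k a _ _ (hy k)

theorem ev {w z : M} (h : Q.LR w z) : ∃ f g : M → M, LB A A f g w z ∧
    ∀ᶠ x in 𝓝 w, Q.LR x (f x) := by
  obtain ⟨f, g, h1, h2⟩ := h
  exact ⟨f, g, h1, (h1.ev.and h2.eventually_nhds).mono fun x hx => ⟨f, g, hx.1, hx.2⟩⟩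

end LR

namespace Ch

variable (C : Q.Ch)

theorem isOpen_S : IsOpen C.S := isClosed_compl_iff.1 C.an_S.isClosed

theorem compS {k : ℕ} (hk : k ≤ C.k0 + 16) {x y z : M} (hx : x ∈ C.S) (hy : y ∈ C.S)
    (hz : z ∈ C.S) (h1 : (x, y) ∈ Q.V (k + 4)) (h2 : (y, z) ∈ Q.V (k + 4)) : (x, z) ∈ Q.V k :=
  have h : ∀ u ∈ C.S, u ∉ Q.B (k + 4) := fun u hu h => C.S_B u hu (Q.B_mono (by omega) h)
  Q.comp k x y z (h x hx) (h y hy) (h z hz) h1 h2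

theorem compS3 {k : ℕ} (hk : k ≤ C.k0 + 12) {x y z u : M} (hx : x ∈ C.S) (hy : y ∈ C.S)
    (hz : z ∈ C.S) (hu : u ∈ C.S) (h1 : (x, y) ∈ Q.V (k + 8)) (h2 : (y, z) ∈ Q.V (k + 8))
    (h3 : (z, u) ∈ Q.V (k + 8)) : (x, u) ∈ Q.V k :=
  C.compS (by omega) hx hz hu (C.compS (k := k + 4) (by omega) hx hy hz h1 h2)
    (Q.V_anti (by omega) h3)

theorem rel {x y z : M} (hx : x ∈ C.S) (hy : y ∈ C.U x) (hz : z ∈ C.U x) :
    Q.LR y z ↔ C.π x y = C.π x z := by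
  refine ⟨fun h => C.eq_of x hx y hy z hz (h.mem _), fun h => ?_⟩
  obtain ⟨f, g, h1, h2⟩ := exists_lift (C.subm x hx y hy) (C.subm x hx z hz)
    (k := fun t => t) (k' := fun t => t) (by rw [← h]; exact LB.refl (HA.self _) (C.π x y))
  refine ⟨f, g, h1, ?_⟩
  filter_upwards [h2, (C.U_opn x hx).mem_nhds hy,
    h1.tendsto.eventually ((C.U_opn x hx).mem_nhds hz)] with u a1 a2 a3
  exact C.of_eq x hx u a2 _ a3 a1.symm

/-- local sections -/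
structure Sec (x w : M) (σ : (Fin C.p → ℂ) → M) : Prop where
  hol : (HA.self _).Hol A σ (C.π x w)
  eq : σ (C.π x w) = w
  ev : ∀ᶠ t in 𝓝 (C.π x w), C.π x (σ t) = t ∧ σ t ∈ C.U x

theorem exists_sec {x w : M} (hx : x ∈ C.S) (hw : w ∈ C.U x) : ∃ σ, C.Sec x w σ := by
  obtain ⟨σ, h1, h2, h3⟩ := (C.subm x hx w hw).sec
  exact ⟨σ, h1, h2, h3.and (h1.1.eventually ((C.U_opn x hx).mem_nhds (by rwa [h2])))⟩

theorem half {x x' w z : M} (hx : x ∈ C.S) (hx' : x' ∈ C.S) (hw : w ∈ C.U x) (hz : z ∈ C.U x')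
    {σ σ' : (Fin C.p → ℂ) → M} (hσ : C.Sec x w σ) (hσ' : C.Sec x' z σ')
    (h : ∃ᶠ q in 𝓝 (w, z), Q.LR q.1 q.2) : ∃ k : (Fin C.p → ℂ) → Fin C.p → ℂ,
      AnalyticAt ℂ k (C.π x w) ∧ k (C.π x w) = C.π x' z ∧
      (∀ᶠ s in 𝓝 (C.π x w), (σ s, σ' (k s)) ∈ Q.V (C.k0 + 4)) ∧
      ∀ᶠ q in 𝓝 (w, z), q ∈ Q.V (C.k0 + 12) → C.π x' q.2 = k (C.π x q.1) := by
  set Γ : Set ((Fin C.p → ℂ) × (Fin C.p → ℂ)) := {q | (σ q.1, σ' q.2) ∈ Q.V (C.k0 + 4)}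
  set N : Set ((Fin C.p → ℂ) × (Fin C.p → ℂ)) := {q | (C.π x (σ q.1) = q.1 ∧ σ q.1 ∈ C.U x) ∧
    C.π x' (σ' q.2) = q.2 ∧ σ' q.2 ∈ C.U x'}
  have hN : N ∈ 𝓝 (C.π x w, C.π x' z) :=
    ((continuous_fst.tendsto (C.π x w, C.π x' z)).eventually hσ.ev).and
      ((continuous_snd.tendsto (C.π x w, C.π x' z)).eventually hσ'.ev)
  have fn : ∀ s t t', (s, t) ∈ N ∩ Γ → (s, t') ∈ N ∩ Γ → t = t' := fun s t t' h1 h2 => by
    have := C.eq_of x' hx' _ h1.1.2.2 _ h2.1.2.2 (C.compS (by omega) (C.U_sub x' hx' h1.1.2.2)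
      (C.U_sub x hx h1.1.1.2) (C.U_sub x' hx' h2.1.2.2) (Q.symm _ _ _ h1.2) h2.2)
    rwa [h1.1.2.1, h2.1.2.1] at this
  have hP : Tendsto (fun q : M × M => (C.π x q.1, C.π x' q.2)) (𝓝 (w, z))
      (𝓝 (C.π x w, C.π x' z)) :=
    ((C.subm x hx w hw).1.1.tendsto.comp (continuous_fst.tendsto (w, z))).prodMk_nhds
      ((C.subm x' hx' z hz).1.1.tendsto.comp (continuous_snd.tendsto (w, z)))
  have hU : ∀ᶠ q in 𝓝 (w, z), q.1 ∈ C.U x ∧ q.2 ∈ C.U x' :=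
    prod_mem_nhds ((C.U_opn x hx).mem_nhds hw) ((C.U_opn x' hx').mem_nhds hz)
  have hΓ : ∀ᶠ q in 𝓝 (w, z), q ∈ Q.V (C.k0 + 12) → (C.π x q.1, C.π x' q.2) ∈ N ∩ Γ := by
    filter_upwards [hU, hP.eventually hN] with q a1 a2 a3
    exact ⟨a2, C.compS3 (by omega) (C.U_sub x hx a2.1.2) (C.U_sub x hx a1.1)
      (C.U_sub x' hx' a1.2) (C.U_sub x' hx' a2.2.2) (C.of_eq x hx _ a2.1.2 _ a1.1 a2.1.1 _) a3
      (C.of_eq x' hx' _ a1.2 _ a2.2.2 a2.2.1.symm _)⟩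
  have hwz : (w, z) ∈ Q.V (C.k0 + 12) :=
    (Q.an_V _).isClosed.closure_subset (mem_closure_iff_frequently.2 (h.mono fun q hq => hq.mem _))
  obtain ⟨k, k1, k2, k3⟩ := graph_of (Γ := Γ) (hΓ.self_of_nhds hwz).2
    (HA.self_anAt.1 (HA.AnAt.preimage (B := A.prod A)
      (f := fun q : (Fin C.p → ℂ) × (Fin C.p → ℂ) => (σ q.1, σ' q.2))
      ((hσ.hol.comp_of_eq (HA.self_hol_iff.2 analyticAt_fst) rfl).prodMk
        (hσ'.hol.comp_of_eq (HA.self_hol_iff.2 analyticAt_snd) rfl))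
      (Q.an_V _ _ (mem_univ _)))) hN fn (fun O hO => by
    obtain ⟨q, ⟨f, g, a1, a2⟩, a3, a4⟩ :=
      (h.and_eventually (hU.and (hΓ.and (hP.eventually hO)).eventually_nhds)).exists
    refine ⟨C.π x q.1, mem_of_superset ((C.subm x hx _ a3.1).image_mem_nhds
      (a2.and ((tendsto_id.prodMk_nhds a1.tendsto).eventually a4))) ?_⟩
    rintro _ ⟨y, hy, rfl⟩
    exact ⟨_, ⟨(hy.2.1 (hy.1 _)).2, hy.2.2⟩, rfl⟩)
  refine ⟨k, k1, k2, k3, ?_⟩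
  have h1 : Tendsto (fun s => (s, k s)) (𝓝 (C.π x w)) (𝓝 (C.π x w, C.π x' z)) :=
    tendsto_id.prodMk_nhds (k2 ▸ k1.continuousAt.tendsto)
  filter_upwards [hΓ, ((continuous_fst.tendsto _).comp hP).eventually ((h1.eventually hN).and k3)]
    with q a1 a2 a3
  exact fn _ _ _ (a1 a3) a2

theorem key {x x' w z : M} (hx : x ∈ C.S) (hx' : x' ∈ C.S) (hw : w ∈ C.U x) (hz : z ∈ C.U x')
    (h : ∃ᶠ q in 𝓝 (w, z), Q.LR q.1 q.2) : ∃ k k' : (Fin C.p → ℂ) → Fin C.p → ℂ,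
      LB (HA.self _) (HA.self _) k k' (C.π x w) (C.π x' z) ∧
      ∀ᶠ q in 𝓝 (w, z), q ∈ Q.V (C.k0 + 12) → C.π x' q.2 = k (C.π x q.1) := by
  obtain ⟨σ, hσ⟩ := C.exists_sec hx hw
  obtain ⟨σ', hσ'⟩ := C.exists_sec hx' hz
  obtain ⟨k, k1, k2, k3, k4⟩ := C.half hx hx' hw hz hσ hσ' h
  obtain ⟨l, l1, l2, l3, -⟩ := C.half hx' hx hz hw hσ' hσ
    ((continuous_swap.tendsto (w, z)).frequently (h.mono fun q hq => hq.symm))
  have tk : Tendsto k (𝓝 (C.π x w)) (𝓝 (C.π x' z)) := k2 ▸ k1.continuousAt.tendsto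
  have tl : Tendsto l (𝓝 (C.π x' z)) (𝓝 (C.π x w)) := l2 ▸ l1.continuousAt.tendsto
  refine ⟨k, l, ⟨k2, HA.self_hol_iff.2 k1, HA.self_hol_iff.2 l1, ?_, ?_⟩, k4⟩
  · filter_upwards [k3, tk.eventually l3, hσ.ev, tk.eventually hσ'.ev,
      (tl.comp tk).eventually hσ.ev] with s a1 a2 a3 a4 a5
    have := C.eq_of x hx _ a3.2 _ a5.2 (C.compS (by omega) (C.U_sub x hx a3.2)
      (C.U_sub x' hx' a4.2) (C.U_sub x hx a5.2) a1 a2)
    rw [a3.1, a5.1] at this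
    exact this.symm
  · filter_upwards [l3, tl.eventually k3, hσ'.ev, tl.eventually hσ.ev,
      (tk.comp tl).eventually hσ'.ev] with s a1 a2 a3 a4 a5
    have := C.eq_of x' hx' _ a3.2 _ a5.2 (C.compS (by omega) (C.U_sub x' hx' a3.2)
      (C.U_sub x hx a4.2) (C.U_sub x' hx' a5.2) a1 a2)
    rw [a3.1, a5.1] at this
    exact this.symm

/-- the leaf relation is closed in `S × S` -/
theorem cls {w z : M} (hw : w ∈ C.S) (hz : z ∈ C.S) (h : ∃ᶠ q in 𝓝 (w, z), Q.LR q.1 q.2) :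
    Q.LR w z := by
  obtain ⟨k, k', h1, h2⟩ := C.key hw hz (C.U_mem w hw) (C.U_mem z hz) h
  obtain ⟨f, g, h3, h4⟩ := exists_lift (C.subm w hw w (C.U_mem w hw))
    (C.subm z hz z (C.U_mem z hz)) h1
  have hUz := (C.U_opn z hz).mem_nhds (C.U_mem z hz)
  obtain ⟨O, o1, o2, o3, o4⟩ := A.exists_preconnected
    (h3.ev.and (h4.and (h3.tendsto.eventually hUz)))
  refine ⟨f, g, h3, (o1.eventually_mem o2).mono fun y hy j => ?_⟩
  obtain ⟨q, ⟨f₁, g₁, a1, a2⟩, a3, a4⟩ := (h.and_eventually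
    (((continuous_fst.tendsto (w, z)).eventually (o1.eventually_mem o2)).and
      (h2.and ((continuous_snd.tendsto (w, z)).eventually hUz)).eventually_nhds)).exists
  refine HA.An.sub_of_mem_nhds (A := A) (Z := (fun y => (y, f y)) ⁻¹' Q.V j)
    ((Q.an_V j).preimage (fun u hu => (A.hol_id u).prodMk (o3 hu).1.hf) (mapsTo_univ _ _))
    o1 o4 a3 ((comp_ev a1 (o3 a3).1 a2 ?_).mono fun u hu => hu j) hy
  filter_upwards [a2, (tendsto_id.prodMk_nhds a1.tendsto).eventually a4, o1.eventually_mem a3]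
    with u b1 b2 b3
  exact C.of_eq z hz _ b2.2 _ (o3 b3).2.2 ((b2.1 (b1 _)).trans (o3 b3).2.1.symm)

theorem hol {x : M} (hx : x ∈ C.S) (a : G) {y z : M} (hy : y ∈ C.U x) (hz : z ∈ C.U x)
    (h : Q.LR (a • y) z) : ∃ h : (Fin C.p → ℂ) → Fin C.p → ℂ, DifferentiableAt ℂ h (C.π x y) ∧
      ∀ᶠ y' in 𝓝 y, ∃ z' ∈ C.U x, Q.LR (a • y') z' ∧ C.π x z' = h (C.π x y') := by
  obtain ⟨σ, hσ⟩ := C.exists_sec hx hy
  obtain ⟨f, g, h1, h2⟩ := h.ev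
  have h3 := (Q.lb_smul a y).trans h1
  refine ⟨fun t => C.π x (f (a • σ t)), (HA.self_hol_iff.1 ((C.subm x hx z hz).1.comp_of_eq
    (h3.hf.comp_of_eq hσ.hol hσ.eq) (by simp only [hσ.eq, h1.eq]))).differentiableAt, ?_⟩
  have e1 : ∀ᶠ u in 𝓝 y, u ∈ C.U x ∧ f (a • u) ∈ C.U x ∧ Q.LR (a • u) (f (a • u)) :=
    ((C.U_opn x hx).eventually_mem hy).and ((h3.tendsto.eventually
      ((C.U_opn x hx).eventually_mem hz)).and ((Q.lb_smul a y).tendsto.eventually h2))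
  have t1 : Tendsto (C.π x) (𝓝 y) (𝓝 (C.π x y)) := (C.subm x hx y hy).1.1
  have t2 : Tendsto σ (𝓝 (C.π x y)) (𝓝 y) := by
    have := hσ.hol.1.tendsto
    rwa [hσ.eq] at this
  filter_upwards [e1, (t2.comp t1).eventually e1, t1.eventually hσ.ev] with u a1 a2 a3
  refine ⟨_, a1.2.1, a1.2.2, (C.rel hx a1.2.1 a2.2.1).1 ?_⟩
  exact (a1.2.2.symm.trans (((C.rel hx a1.1 a3.2).2 a3.1.symm).smul a)).trans a2.2.2

/-- equicontinuity by the continuity method -/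
theorem eqc (H : ∀ x ∈ C.S, ∀ K : Set M, IsCompact K → (∀ z ∈ K, z ∈ C.U x ∧ C.π x z ≠ C.π x x) →
      ∃ V ∈ 𝓝 x, ∀ a : G, (∃ y ∈ V, ∃ z ∈ V, Q.LR (a • y) z) → ∀ y ∈ V, ∀ z ∈ K,
        ¬ Q.LR (a • y) z)
    {x : M} (hx : x ∈ C.S) {W : Set M} (hW : W ∈ 𝓝 x) : ∃ V ∈ 𝓝 x, ∀ a : G,
      (∃ y ∈ V, ∃ z ∈ V, Q.LR (a • y) z) → ∀ y ∈ V, ∃ z ∈ W, Q.LR (a • y) z := by
  have hxU := C.U_mem x hx
  obtain ⟨σ, hσ⟩ := C.exists_sec hx hxU
  obtain ⟨ε, hε, hb⟩ := nhds_basis_closedBall.mem_iff.1 ((hσ.hol.eventually.and hσ.ev).and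
    (hσ.hol.1.eventually (p := (· ∈ W)) (by rwa [hσ.eq])))
  obtain ⟨V₀, hV₀, hH⟩ := H x hx (σ '' (closedBall (C.π x x) ε \ ball (C.π x x) ε))
    (((isCompact_closedBall _ _).diff isOpen_ball).image_of_continuousOn
      fun t ht => (hb ht.1).1.1.1.continuousWithinAt) (by
      rintro _ ⟨t, ht, rfl⟩
      refine ⟨(hb ht.1).1.2.2, fun e => ht.2 ?_⟩
      rw [← (hb ht.1).1.2.1, e]
      exact mem_ball_self hε)
  have back : ∀ z ∈ C.U x, C.π x z ∈ ball (C.π x x) ε → Q.LR z (σ (C.π x z)) := fun z hz h =>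
    (C.rel hx hz (hb (ball_subset_closedBall h)).1.2.2).2 (hb (ball_subset_closedBall h)).1.2.1.symm
  obtain ⟨V, v1, v2, v3, v4⟩ := A.exists_preconnected (inter_mem hV₀ (inter_mem
    ((C.U_opn x hx).mem_nhds hxU) ((C.subm x hx x hxU).1.1.eventually (ball_mem_nhds _ hε))))
  refine ⟨V, v1.mem_nhds v2, fun a ⟨y₀, hy₀, z₀, hz₀, h₀⟩ => ?_⟩
  have hH := hH a ⟨y₀, (v3 hy₀).1, z₀, (v3 hz₀).1, h₀⟩
  suffices h : V ⊆ {y | y ∈ V ∧ ∃ t ∈ closedBall (C.π x x) ε, Q.LR (a • y) (σ t)} from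
    fun y hy => let ⟨_, t, ht, h⟩ := h hy; ⟨σ t, (hb ht).2, h⟩
  refine v4.subset_of_closure_inter_subset (isOpen_iff_mem_nhds.2 ?_)
    ⟨y₀, hy₀, hy₀, _, ball_subset_closedBall (v3 hz₀).2.2,
      h₀.trans (back z₀ (v3 hz₀).2.1 (v3 hz₀).2.2)⟩ fun y hy => ⟨hy.2, ?_⟩
  · rintro y ⟨hy, t, ht, h⟩
    have ht' : t ∈ ball (C.π x x) ε := by
      by_contra h'
      exact hH y (v3 hy).1 _ ⟨t, ⟨ht, h'⟩, rfl⟩ h
    obtain ⟨f, g, h1, h2⟩ := h.ev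
    have h3 := ((Q.lb_smul a y).trans h1).tendsto
    filter_upwards [v1.mem_nhds hy, (Q.lb_smul a y).tendsto.eventually h2,
      h3.eventually ((C.U_opn x hx).eventually_mem (hb ht).1.2.2),
      h3.eventually ((C.subm x hx _ (hb ht).1.2.2).1.1.eventually
        (isOpen_ball.eventually_mem (by rwa [(hb ht).1.2.1])))] with u a1 a2 a3 a4
    exact ⟨a1, _, ball_subset_closedBall a4, a2.trans (back _ a3 a4)⟩
  · by_contra hn
    push Not at hn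
    have : ∀ᶠ u in 𝓝 y, ∀ t ∈ closedBall (C.π x x) ε, ¬ Q.LR (a • u) (σ t) := by
      refine (isCompact_closedBall _ _).eventually_forall_of_forall_eventually fun t ht => ?_
      have h1 : ∀ᶠ q in 𝓝 (a • y, σ t), ¬ Q.LR q.1 q.2 := not_frequently.1 fun h => hn t ht
        (C.cls (C.sinv a y (C.U_sub x hx (v3 hy.2).2.1)) (C.U_sub x hx (hb ht).1.2.2) h)
      exact (((Q.lb_smul a y).tendsto.comp (continuous_fst.tendsto (y, t))).prodMk_nhds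
        ((hb ht).1.1.1.tendsto.comp (continuous_snd.tendsto (y, t)))).eventually h1
    obtain ⟨u, h1, -, t, ht, h2⟩ := mem_closure_iff_nhds.1 hy.1 _ this
    exact h1 t ht h2

/-- the leaf structure -/
def leaf (H : ∀ x ∈ C.S, ∀ K : Set M, IsCompact K → (∀ z ∈ K, z ∈ C.U x ∧ C.π x z ≠ C.π x x) →
      ∃ V ∈ 𝓝 x, ∀ a : G, (∃ y ∈ V, ∃ z ∈ V, Q.LR (a • y) z) → ∀ y ∈ V, ∀ z ∈ K,
        ¬ Q.LR (a • y) z) : Leaf G M (Fin C.p → ℂ) where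
  act := fun g x => g • x
  act_one := one_smul G
  act_mul := mul_smul
  cont := fun g => continuous_iff_continuousAt.2 fun x => (Q.hol g x).1
  S := C.S
  opn := C.isOpen_S
  conn := compl_compl C.S ▸ C.an_S.preconnected_compl
  ne := C.ne
  sinv := C.sinv
  R := Q.LR
  refl := fun x _ => LR.refl Q x
  symm := fun _ _ _ _ h => h.symm
  trans := fun _ _ _ _ _ _ h h' => h.trans h'
  rinv := fun g _ _ _ _ h => h.smul g
  U := C.U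
  π := C.π
  U_opn := C.U_opn
  U_mem := C.U_mem
  U_sub := C.U_sub
  π_cont := fun x hx y hy => (C.subm x hx y hy).1.1.continuousWithinAt
  π_opn := fun x hx y hy _ hW => (C.subm x hx y hy).image_mem_nhds hW
  π_rel := fun _ hx _ hy _ hz => C.rel hx hy hz
  hol := fun _ hx a _ hy _ hz h => C.hol hx a hy hz h
  eqc := fun _ hx _ hW => C.eqc H hx hW

end Ch

end GS

end

end Crest.Agent.X261.Eqv
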