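import Crest.Agent.X261.Eqv.B2
import Crest.Agent.X261.Ans.Man2

/-!
# Row 261, package EQV (helper30), file `Defs2`: internal interfaces of the proof of `EqvStmt`

* `GS A G` : graded system of analytic relations; `GS.Ch` : its foliation charts;
* `TP.Lv` : the graded system of a two-point system;
* `TP.Out0` : the output without the wandering case.
-/

set_option autoImplicit false
set_option linter.unusedSectionVars false
set_option linter.dupNamespace false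

open Set Filter Topology MeasureTheory

namespace Crest.Agent.X261.Eqv

open Crest.Agent.X261.Ans Crest.Agent.X261.Psh Crest.Agent.X261.Loc

noncomputable section

variable {E : Type} [NormedAddCommGroup E] [NormedSpace ℂ E] {M : Type} [TopologicalSpace M]

/-- a graded system of invariant analytic relations -/
structure GS (A : HA E M) (G : Type) [Group G] [MulAction G M] where
  hol : ∀ (g : G) (x : M), A.Hol A (fun y => g • y) x
  K : Set M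
  K_cpt : IsCompact K
  K_cov : ∀ x : M, ∃ g : G, g • x ∈ K
  B : ℕ → Set M
  an_B : ∀ k, A.An univ (B k)
  ne_B : ∀ k, B k ≠ univ
  B_mono : Monotone B
  B_inv : ∀ k (g : G) x, x ∈ B k → g • x ∈ B k
  V : ℕ → Set (M × M)
  an_V : ∀ k, (A.prod A).An univ (V k)
  V_anti : Antitone V
  diag : ∀ k x, (x, x) ∈ V k
  symm : ∀ k x y, (x, y) ∈ V k → (y, x) ∈ V k
  inv : ∀ k (g : G) x y, (x, y) ∈ V k → (g • x, g • y) ∈ V k
  comp : ∀ k x y z, x ∉ B (k + 4) → y ∉ B (k + 4) → z ∉ B (k + 4) → (x, y) ∈ V (k + 4) →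
    (y, z) ∈ V (k + 4) → (x, z) ∈ V k

/-- foliation charts of a graded system -/
structure GS.Ch {A : HA E M} {G : Type} [Group G] [MulAction G M] (Q : GS A G) where
  p : ℕ
  k0 : ℕ
  S : Set M
  an_S : A.An univ Sᶜ
  ne : S.Nonempty
  sinv : ∀ (g : G), ∀ x ∈ S, g • x ∈ S
  S_B : ∀ x ∈ S, x ∉ Q.B (k0 + 20)
  U : M → Set M
  π : M → M → Fin p → ℂ
  U_opn : ∀ x ∈ S, IsOpen (U x)
  U_mem : ∀ x ∈ S, x ∈ U x
  U_sub : ∀ x ∈ S, U x ⊆ S
  subm : ∀ x ∈ S, ∀ y ∈ U x, A.Subm (HA.self (Fin p → ℂ)) (π x) y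
  eq_of : ∀ x ∈ S, ∀ y ∈ U x, ∀ z ∈ U x, (y, z) ∈ Q.V k0 → π x y = π x z
  of_eq : ∀ x ∈ S, ∀ y ∈ U x, ∀ z ∈ U x, π x y = π x z → ∀ k, (y, z) ∈ Q.V k

/-- (C1) existence of the charts -/
def ChStmt : Prop :=
  ∀ (E : Type) [NormedAddCommGroup E] [NormedSpace ℂ E] [FiniteDimensional ℂ E]
    (M : Type) [TopologicalSpace M] [T2Space M] [ConnectedSpace M] (A : HA E M) [Countable A.ι]
    (G : Type) [Group G] [MulAction G M] (Q : GS A G), Nonempty Q.Ch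

namespace TP

variable [FiniteDimensional ℂ E] [MeasurableSpace E] [BorelSpace E] {μ : Measure E}
  [μ.IsAddHaarMeasure] {A : HA E M} {G : Type} [Group G] [MulAction G M] (T : TP μ A G)

/-- the graded system of a two-point system -/
structure Lv extends GS A G where
  near : ∀ k x, x ∉ B k → T.Near k x
  R1_sub : ∀ k, T.R1 (k + 2) ⊆ V k
  sub_R1 : ∀ k x y, x ∉ B k → y ∉ B k → (x, y) ∈ V k → (x, y) ∈ T.R1 k

/-- the output without the wandering case -/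
structure Out0 where
  p : ℕ
  L : Leaf G M (Fin p → ℂ)
  act : ∀ g x, L.act g x = g • x
  an_S : A.An univ L.Sᶜ
  subm : ∀ x ∈ L.S, ∀ y ∈ L.U x, A.Subm (HA.self (Fin p → ℂ)) (L.π x) y
  R_sub : ∀ x ∈ L.S, ∀ y ∈ L.S, L.R x y → (x, y) ∈ T.R0
  k0 : ℕ
  far : ∀ k, k0 ≤ k → ∀ x ∈ L.S, ∀ C : Set (M × M), IsCompact C →
    (∀ q ∈ C, q.1 ∈ L.U x ∧ q.2 ∈ L.U x ∧ L.π x q.1 ≠ L.π x q.2) →
    ∃ a : ℝ, ∀ q ∈ C, q ∉ T.cl k a
  /-- saturations of open sets are open -/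
  opn : ∀ y ∈ L.S, ∀ z ∈ L.S, L.R y z → ∀ Z ∈ 𝓝 z, ∀ᶠ y' in 𝓝 y, ∃ z' ∈ Z, L.R y' z'
  /-- the relation is closed in `S × S` -/
  cls : ∀ y ∈ L.S, ∀ z ∈ L.S,
    (y, z) ∈ closure {q : M × M | q.1 ∈ L.S ∧ q.2 ∈ L.S ∧ L.R q.1 q.2} → L.R y z
  /-- the classes are open in the slices of an analytic relation -/
  RR : Set (M × M)
  an_RR : (A.prod A).An univ RR
  sub_RR : ∀ x ∈ L.S, ∀ y ∈ L.S, L.R x y → (x, y) ∈ RR
  loc_RR : ∀ x ∈ L.S, ∀ y ∈ L.S, L.R x y → ∀ᶠ z in 𝓝 y, (x, z) ∈ RR → L.R x z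

/-- (E) in the wandering case the classes through an open set are bounded -/
def WandE (O : T.Out0) : Prop :=
  AE μ A T.Typ → O.L.Wand → ∃ V : Set M, IsOpen V ∧ V.Nonempty ∧ V ⊆ O.L.S ∧
    ∃ C : Set M, IsCompact C ∧ ∀ x ∈ V, ∀ y ∈ O.L.S, O.L.R x y → y ∈ C

/-- (F) bounded classes lie in compact connected analytic sets -/
def WandF (O : T.Out0) : Prop :=
  ∀ x ∈ O.L.S, ∀ C : Set M, IsCompact C → (∀ y ∈ O.L.S, O.L.R x y → y ∈ C) →
    ∃ Z : Set M, IsCompact Z ∧ IsPreconnected Z ∧ A.An univ Z ∧ x ∈ Z ∧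
      ∀ᶠ y in 𝓝 x, O.L.R x y → y ∈ Z

end TP

end

end Crest.Agent.X261.Eqv
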